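/-!
# P098: kernel checker for matrix inequalities on boxes (definitions only)

Polynomials in nested Horner form; a leaf packs several signed integers `u j - v j` into two
natural numbers, `m` bounds all `u j`, `v j`.
-/

namespace Vale.Agent.P098.Ck

inductive P where
  | nil : P
  | lf (a b m : Nat) : P
  | cons (c r : P) : P

inductive PL where
  | nil : PL
  | cons (p : P) (l : PL) : PL

inductive NL where
  | nil : NL
  | cons (a : Nat) (l : NL) : NL

noncomputable def band (a b : Bool) : Bool := Bool.rec (motive := fun _ => Bool) false b a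

/-- Add a leaf to the constant term. -/
noncomputable def addL (a b m : Nat) (q : P) : P :=
  P.rec (motive := fun _ => P) (P.lf a b m)
    (fun a' b' m' => P.lf (Nat.add a a') (Nat.add b b') (Nat.add m m'))
    (fun _ r ic _ => P.cons ic r) q

noncomputable def padd (p : P) : P → P :=
  P.rec (motive := fun _ => P → P) (fun q => q) (fun a b m q => addL a b m q)
    (fun c r ic ir q => P.rec (motive := fun _ => P) (P.cons c r)
      (fun a b m => P.cons (addL a b m c) r) (fun c' r' _ _ => P.cons (ic c') (ir r')) q) p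

/-- Multiplication by a natural number. -/
noncomputable def pmn (k : Nat) (p : P) : P :=
  P.rec (motive := fun _ => P) P.nil (fun a b m => P.lf (Nat.mul k a) (Nat.mul k b) (Nat.mul k m))
    (fun _ _ ic ir => P.cons ic ir) p

/-- Multiplication by minus a natural number. -/
noncomputable def pmm (k : Nat) (p : P) : P :=
  P.rec (motive := fun _ => P) P.nil (fun a b m => P.lf (Nat.mul k b) (Nat.mul k a) (Nat.mul k m))
    (fun _ _ ic ir => P.cons ic ir) p

/-- Multiplication by `a - b`. -/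
noncomputable def zsm (a b : Nat) (p : P) : P :=
  Bool.rec (motive := fun _ => P) (pmn (Nat.sub a b) p)
    (Bool.rec (motive := fun _ => P) (pmm (Nat.sub b a) p) P.nil (Nat.ble b a)) (Nat.ble a b)

/-- Substitute `X 0 := (a - b) + h * X 0`. -/
noncomputable def sft0 (a b h : Nat) (p : P) : P :=
  P.rec (motive := fun _ => P) P.nil (fun x y m => P.lf x y m)
    (fun c _ _ ir => padd (P.cons c (pmn h ir)) (zsm a b ir)) p

/-- Apply `f` to the coefficients of the outer variable. -/
noncomputable def lift (f : P → P) (p : P) : P :=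
  P.rec (motive := fun _ => P) P.nil (fun x y m => P.lf x y m) (fun c _ _ ir => P.cons (f c) ir) p

/-- Substitute the value `a - b` for the outer variable. -/
noncomputable def sub0 (a b : Nat) (p : P) : P :=
  P.rec (motive := fun _ => P) P.nil (fun x y m => P.lf x y m)
    (fun c _ _ ir => padd c (zsm a b ir)) p

/-- Derivative in the outer variable. -/
noncomputable def der0 (p : P) : P :=
  P.rec (motive := fun _ => P) P.nil (fun _ _ _ => P.nil)
    (fun _ r _ ir => padd r (P.cons P.nil ir)) p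

/-- Apply `f` (which kills constants) to the coefficients of the outer variable. -/
noncomputable def liftD (f : P → P) (p : P) : P :=
  P.rec (motive := fun _ => P) P.nil (fun _ _ _ => P.nil) (fun c _ _ ir => P.cons (f c) ir) p

/-- Derivative in variable `i`. -/
noncomputable def der (i : Nat) : P → P :=
  Nat.rec (motive := fun _ => P → P) der0 (fun _ f => liftD f) i

/-- Sum of the absolute values of all coefficients (a leaf or `nil`). -/
noncomputable def nm (p : P) : P :=
  P.rec (motive := fun _ => P) P.nil (fun a b m => P.lf (Nat.add a b) 0 (Nat.add m m))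
    (fun _ _ ic ir => padd ic ir) p

/-- The same for the terms of total degree above `d`. -/
noncomputable def cr (p : P) : Nat → P :=
  P.rec (motive := fun _ => Nat → P) (fun _ => P.nil) (fun _ _ _ _ => P.nil)
    (fun _ r ic ir d => padd (ic d)
      (Nat.rec (motive := fun _ => P) (nm r) (fun d' _ => ir d') d)) p

/-- Terms of total degree at most `d`. -/
noncomputable def tr (p : P) : Nat → P :=
  P.rec (motive := fun _ => Nat → P) (fun _ => P.nil) (fun a b m _ => P.lf a b m)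
    (fun _ _ ic ir d => P.cons (ic d)
      (Nat.rec (motive := fun _ => P) P.nil (fun d' _ => ir d') d)) p

/-- Terms of total degree at most `d`, with normalised and shifted leaves. -/
noncomputable def keep (g : Nat → Nat → Nat) (sh : Nat) (p : P) : Nat → P :=
  P.rec (motive := fun _ => Nat → P) (fun _ => P.nil)
    (fun a b m _ => P.lf (g a b) (g b a) (Nat.shiftRight m sh))
    (fun _ _ ic ir d => P.cons (ic d)
      (Nat.rec (motive := fun _ => P) P.nil (fun d' _ => ir d') d)) p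

/-- Number of leaves of total degree at most `d`. -/
noncomputable def cnt (p : P) : Nat → Nat :=
  P.rec (motive := fun _ => Nat → Nat) (fun _ => 0) (fun _ _ _ _ => 1)
    (fun _ _ ic ir d => Nat.add (ic d)
      (Nat.rec (motive := fun _ => Nat) 0 (fun d' _ => ir d') d)) p

/-- All bounds are below `M`. -/
noncomputable def okm (M : Nat) (p : P) : Bool :=
  P.rec (motive := fun _ => Bool) true (fun _ _ m => Nat.blt m M) (fun _ _ ic ir => band ic ir) p

/-- At most `k` variables occur. -/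
noncomputable def dp (p : P) : Nat → Bool :=
  P.rec (motive := fun _ => Nat → Bool) (fun _ => true) (fun _ _ _ _ => true)
    (fun _ _ ic ir k => Nat.rec (motive := fun _ => Bool) false
      (fun k' _ => band (ic k') (ir k)) k) p

/-- Error of `keep`: rounding of the kept leaves and the dropped terms; `one` packs the ones. -/
noncomputable def kerr (g : Nat → Nat → Nat) (sh one : Nat) (p : P) (d : Nat) : P :=
  addL (Nat.mul (Nat.succ (cnt p d)) one) 0 (Nat.succ (cnt p d)) (keep g sh (cr p d) 0)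

/-- `J` digits equal to one, of width `L`. -/
noncomputable def ones (L J : Nat) : Nat :=
  Nat.div (Nat.sub (Nat.pow 2 (Nat.mul L J)) 1) (Nat.sub (Nat.pow 2 L) 1)

noncomputable def nzs2 (L O sh c s : Nat) : Nat :=
  Nat.land (Nat.shiftRight (Nat.land c (Nat.sub (Nat.shiftLeft s (Nat.sub L 1)) s)) sh)
    (Nat.mul (Nat.sub (Nat.pow 2 (Nat.sub L sh)) 1) O)

noncomputable def nzs1 (L O sh c : Nat) : Nat :=
  nzs2 L O sh c (Nat.land (Nat.shiftRight c (Nat.sub L 1)) O)

/-- Digitwise `(u j - v j) / 2 ^ sh`. -/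
noncomputable def nzs (L J sh a b : Nat) : Nat :=
  nzs1 L (ones L J) sh (Nat.sub (Nat.add a (Nat.shiftLeft (ones L J) (Nat.sub L 1))) b)

/-- The scalar case. -/
noncomputable def sz (sh a b : Nat) : Nat := Nat.shiftRight (Nat.sub a b) sh

/-- Homogenisation: `pre L p d` at `e` is `L ^ d` times the degree `d` part at `e / L`. -/
noncomputable def pre (L : Nat) (p : P) : Nat → P :=
  P.rec (motive := fun _ => Nat → P) (fun _ => P.nil)
    (fun a b m d => P.lf (Nat.mul (Nat.pow L d) a) (Nat.mul (Nat.pow L d) b)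
      (Nat.mul (Nat.pow L d) m))
    (fun _ _ ic ir d => P.cons (ic d)
      (Nat.rec (motive := fun _ => P) P.nil (fun d' _ => ir d') d)) p

/-- Constant term. -/
noncomputable def cst (p : P) : P :=
  P.rec (motive := fun _ => P) P.nil (fun a b m => P.lf a b m) (fun _ _ ic _ => ic) p

/-- Move a scalar polynomial to the slot at bit position `k`. -/
noncomputable def place (k : Nat) (p : P) : P :=
  P.rec (motive := fun _ => P) P.nil
    (fun a b m => P.lf (Nat.shiftLeft a k) (Nat.shiftLeft b k) m) (fun _ _ ic ir => P.cons ic ir) p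

/-- Product of scalar polynomials. -/
noncomputable def pmul (p : P) : P → P :=
  P.rec (motive := fun _ => P → P) (fun _ => P.nil) (fun a b _ q => zsm a b q)
    (fun _ _ ic ir q => padd
      (P.rec (motive := fun _ => P) P.nil (fun a b m => P.cons (ic (P.lf a b m)) P.nil)
        (fun c' _ _ ir' => P.cons (ic c') ir') q)
      (P.cons P.nil (ir q))) p

/-- `∑ j, (u j - v j) • S j` for a packed leaf of width `L`, mask `M`. -/
noncomputable def comb (L M : Nat) (S : PL) : Nat → Nat → P :=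
  PL.rec (motive := fun _ => Nat → Nat → P) (fun _ _ => P.nil)
    (fun p _ ih a b => padd (zsm (Nat.land a M) (Nat.land b M) p)
      (ih (Nat.shiftRight a L) (Nat.shiftRight b L))) S

/-- Contraction of the packed index of every leaf with the list `S`. -/
noncomputable def tens0 (L M : Nat) (S : PL) (G : P) : P :=
  P.rec (motive := fun _ => P) P.nil (fun a b _ => comb L M S a b)
    (fun _ _ ic ir => P.cons ic ir) G

/-- The low `k` bits of all leaves. -/
noncomputable def plo (k : Nat) (p : P) : P :=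
  P.rec (motive := fun _ => P) P.nil
    (fun a b m => P.lf (Nat.land a (Nat.sub (Nat.pow 2 k) 1)) (Nat.land b (Nat.sub (Nat.pow 2 k) 1)) m)
    (fun _ _ ic ir => P.cons ic ir) p

/-- The other bits. -/
noncomputable def phi (k : Nat) (p : P) : P :=
  P.rec (motive := fun _ => P) P.nil
    (fun a b m => P.lf (Nat.shiftRight a k) (Nat.shiftRight b k) m) (fun _ _ ic ir => P.cons ic ir) p

/-- First packed number of a leaf. -/
noncomputable def va (p : P) : Nat :=
  P.rec (motive := fun _ => Nat) 0 (fun a _ _ => a) (fun _ _ _ _ => 0) p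

noncomputable def isNil (p : P) : Bool :=
  P.rec (motive := fun _ => Bool) true (fun _ _ _ => false) (fun _ _ _ _ => false) p

/-- Total degree at most `d`. -/
noncomputable def dg (p : P) : Nat → Bool :=
  P.rec (motive := fun _ => Nat → Bool) (fun _ => true) (fun _ _ _ _ => true)
    (fun _ r ic ir d => band (ic d)
      (Nat.rec (motive := fun _ => Bool) (isNil r) (fun d' _ => ir d') d)) p

/-- All digits (width `L`, `O` packs the ones) are below `2 ^ b`. -/
noncomputable def dlt (L O b : Nat) (p : P) : Bool :=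
  P.rec (motive := fun _ => Bool) true
    (fun x y _ => Nat.beq (Nat.land (Nat.lor x y) (Nat.mul (Nat.sub (Nat.pow 2 L) (Nat.pow 2 b)) O)) 0)
    (fun _ _ ic ir => band ic ir) p

noncomputable def setm (m : Nat) (p : P) : P :=
  P.rec (motive := fun _ => P) P.nil (fun a b _ => P.lf a b m) (fun _ _ ic ir => P.cons ic ir) p

noncomputable def der2 (T : P) (i : Nat) : P := der i (der i T)

/-! ## Simultaneous test of positive semidefiniteness; digits of width 56 hold 27 bits -/

noncomputable def msk1 (s : Nat) : Nat := Nat.sub (Nat.shiftLeft s 27) s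
/-- All ones where bit `k` of the digit of `a` is set. -/
noncomputable def msk (O a k : Nat) : Nat := msk1 (Nat.land (Nat.shiftRight a k) O)

/-- Digitwise `a * x + b * c`. -/
noncomputable def sm (O a x b c : Nat) : Nat :=
  Nat.rec (motive := fun _ => Nat) 0
    (fun k ih => Nat.add ih
      (Nat.shiftLeft (Nat.add (Nat.land x (msk O a k)) (Nat.land c (msk O b k))) k)) 27

/-- All digits lie in `[2 ^ (L - 1), 2 ^ (L - 1) + 2 ^ (s + 27))`. -/
noncomputable def rok (L O s y : Nat) : Bool :=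
  Nat.beq (Nat.land y (Nat.mul (Nat.sub (Nat.pow 2 L) (Nat.pow 2 (Nat.add s 27))) O))
    (Nat.shiftLeft O (Nat.sub L 1))

noncomputable def rsh (O s y : Nat) : Nat := Nat.land (Nat.shiftRight y s) (Nat.mul 134217727 O)

/-- One entry of the elimination step, `z` is subtracted after the shift. -/
noncomputable def el (O s z a x b c : Nat) : Nat :=
  Nat.sub (Nat.add (sm O a x b c)
      (Nat.mul (Nat.add 40532396579225600 (Nat.shiftLeft (Nat.sub 67108864 z) s)) O))
    (Nat.add (Nat.shiftLeft (Nat.add a b) 26) (Nat.mul 67108863 c))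

noncomputable def top (O x : Nat) : Bool :=
  Nat.beq (Nat.land x (Nat.shiftLeft O 26)) (Nat.shiftLeft O 26)
noncomputable def piv (O x : Nat) : Nat := Nat.add (Nat.land x (Nat.mul 67108863 O)) O
noncomputable def neg (O x : Nat) : Nat := Nat.sub (Nat.mul 134217727 O) x

noncomputable def sq1 (O x00 : Nat) : Bool := top O x00

noncomputable def sr2 (O s1 y00 : Nat) : Bool :=
  band (rok 56 O s1 y00)
    (sq1 O  (rsh O s1 y00))

noncomputable def sq2 (O s1 x00 x01 x11 : Nat) : Bool :=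
  band (band (top O x00) (Nat.ble s1 28))
    (sr2 O s1 (el O s1 5 (piv O x00) x11 (neg O x01) x01))

noncomputable def sr3 (O s1 s2 y00 y01 y11 : Nat) : Bool :=
  band (rok 56 O s1 y00)
    (band (rok 56 O s1 y01)
    (band (rok 56 O s1 y11)
    (sq2 O s2 (rsh O s1 y00) (rsh O s1 y01) (rsh O s1 y11))))

noncomputable def sq3 (O s1 s2 x00 x01 x02 x11 x12 x22 : Nat) : Bool :=
  band (band (top O x00) (Nat.ble s1 28))
    (sr3 O s1 s2 (el O s1 5 (piv O x00) x11 (neg O x01) x01)
      (el O s1 0 (piv O x00) x12 (neg O x01) x02)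
      (el O s1 5 (piv O x00) x22 (neg O x02) x02))

noncomputable def sr4 (O s1 s2 s3 y00 y01 y02 y11 y12 y22 : Nat) : Bool :=
  band (rok 56 O s1 y00)
    (band (rok 56 O s1 y01)
    (band (rok 56 O s1 y02)
    (band (rok 56 O s1 y11)
    (band (rok 56 O s1 y12)
    (band (rok 56 O s1 y22)
    (sq3 O s2 s3 (rsh O s1 y00) (rsh O s1 y01) (rsh O s1 y02) (rsh O s1 y11) (rsh O s1 y12) (rsh O s1 y22)))))))

noncomputable def sq4 (O s1 s2 s3 x00 x01 x02 x03 x11 x12 x13 x22 x23 x33 : Nat) : Bool :=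
  band (band (top O x00) (Nat.ble s1 28))
    (sr4 O s1 s2 s3 (el O s1 5 (piv O x00) x11 (neg O x01) x01)
      (el O s1 0 (piv O x00) x12 (neg O x01) x02)
      (el O s1 0 (piv O x00) x13 (neg O x01) x03)
      (el O s1 5 (piv O x00) x22 (neg O x02) x02)
      (el O s1 0 (piv O x00) x23 (neg O x02) x03)
      (el O s1 5 (piv O x00) x33 (neg O x03) x03))

noncomputable def sr5 (O s1 s2 s3 s4 y00 y01 y02 y03 y11 y12 y13 y22 y23 y33 : Nat) : Bool :=
  band (rok 56 O s1 y00)
    (band (rok 56 O s1 y01)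
    (band (rok 56 O s1 y02)
    (band (rok 56 O s1 y03)
    (band (rok 56 O s1 y11)
    (band (rok 56 O s1 y12)
    (band (rok 56 O s1 y13)
    (band (rok 56 O s1 y22)
    (band (rok 56 O s1 y23)
    (band (rok 56 O s1 y33)
    (sq4 O s2 s3 s4 (rsh O s1 y00) (rsh O s1 y01) (rsh O s1 y02) (rsh O s1 y03) (rsh O s1 y11) (rsh O s1 y12) (rsh O s1 y13) (rsh O s1 y22) (rsh O s1 y23) (rsh O s1 y33)))))))))))

noncomputable def sq5 (O s1 s2 s3 s4 x00 x01 x02 x03 x04 x11 x12 x13 x14 x22 x23 x24 x33 x34 x44 : Nat) : Bool :=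
  band (band (top O x00) (Nat.ble s1 28))
    (sr5 O s1 s2 s3 s4 (el O s1 5 (piv O x00) x11 (neg O x01) x01)
      (el O s1 0 (piv O x00) x12 (neg O x01) x02)
      (el O s1 0 (piv O x00) x13 (neg O x01) x03)
      (el O s1 0 (piv O x00) x14 (neg O x01) x04)
      (el O s1 5 (piv O x00) x22 (neg O x02) x02)
      (el O s1 0 (piv O x00) x23 (neg O x02) x03)
      (el O s1 0 (piv O x00) x24 (neg O x02) x04)
      (el O s1 5 (piv O x00) x33 (neg O x03) x03)
      (el O s1 0 (piv O x00) x34 (neg O x03) x04)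
      (el O s1 5 (piv O x00) x44 (neg O x04) x04))

/-! ## Evaluation on a grid; digits of width 112 -/

noncomputable def len (X : NL) : Nat :=
  NL.rec (motive := fun _ => Nat) 0 (fun _ _ ih => Nat.succ ih) X

noncomputable def nth (X : NL) : Nat → Nat :=
  NL.rec (motive := fun _ => Nat → Nat) (fun _ => 0)
    (fun a _ ih k => Nat.rec (motive := fun _ => Nat) a (fun k' _ => ih k') k) X

/-- Cut `c` into `n` pieces of `z` bits. -/
noncomputable def spl (z n : Nat) : Nat → NL :=
  Nat.rec (motive := fun _ => Nat → NL) (fun _ => NL.nil)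
    (fun _ ih c => NL.cons (Nat.land c (Nat.sub (Nat.pow 2 z) 1)) (ih (Nat.shiftRight c z))) n

noncomputable def zmer (z : Nat) (X : NL) : NL → NL :=
  NL.rec (motive := fun _ => NL → NL) (fun _ => NL.nil)
    (fun a _ ih Y => NL.rec (motive := fun _ => NL) NL.nil
      (fun b Y' _ => NL.cons (Nat.add (Nat.shiftLeft a z) b) (ih Y')) Y) X

/-- A leaf with `16 * Q` digits, biased by `2 ^ 111` and cut into sixteen pieces. -/
noncomputable def lfs (Q : Nat) (p : P) : NL :=
  P.rec (motive := fun _ => NL) NL.nil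
    (fun a b m => Bool.rec (motive := fun _ => NL) NL.nil
      (spl (Nat.mul 112 Q) 16
        (Nat.sub (Nat.add a (Nat.shiftLeft (ones 112 (Nat.mul 16 Q)) 111)) b))
      (Nat.blt m 1298074214633706907132624082305024))
    (fun _ _ _ _ => NL.nil) p

/-- Substitute `-8 + k * s`, `k = 0, …, n`, where `n * s = 16`, and join the results, each of
which has `V` digits. -/
noncomputable def gm (n V : Nat) (f : P → NL) (p : P) : NL :=
  Nat.rec (motive := fun _ => NL) (f (sub0 0 8 p))
    (fun k ih => zmer (Nat.mul 112 V) ih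
      (f (sub0 (Nat.mul (Nat.succ k) (Nat.div 16 n)) 8 p))) n

/-- Interleave the two halves of `V` digits of width 112. -/
noncomputable def il (V y : Nat) : Nat :=
  Nat.add (Nat.land y (Nat.sub (Nat.pow 2 (Nat.mul 112 (Nat.div (Nat.succ V) 2))) 1))
    (Nat.shiftLeft (Nat.shiftRight y (Nat.mul 112 (Nat.div V 2))) 56)

/-- Add the bias and subtract `d`. -/
noncomputable def fy (O s d x : Nat) : Nat :=
  Nat.sub (Nat.add x (Nat.shiftLeft O (Nat.add s 26))) (Nat.mul d O)

noncomputable def fin2 (V O s0 s1 s2 s3 s4 w0 w1 w2 w3 w4 y0 y1 y2 y3 y4 y5 y6 y7 y8 y9 y10 y11 y12 y13 y14 : Nat) : Bool :=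
  band (rok 112 O (Nat.sub s0 (Nat.add w0 w0)) y0)
    (band (rok 112 O (Nat.sub s0 (Nat.add w0 w1)) y1)
    (band (rok 112 O (Nat.sub s0 (Nat.add w0 w2)) y2)
    (band (rok 112 O (Nat.sub s0 (Nat.add w0 w3)) y3)
    (band (rok 112 O (Nat.sub s0 (Nat.add w0 w4)) y4)
    (band (rok 112 O (Nat.sub s0 (Nat.add w1 w1)) y5)
    (band (rok 112 O (Nat.sub s0 (Nat.add w1 w2)) y6)
    (band (rok 112 O (Nat.sub s0 (Nat.add w1 w3)) y7)
    (band (rok 112 O (Nat.sub s0 (Nat.add w1 w4)) y8)
    (band (rok 112 O (Nat.sub s0 (Nat.add w2 w2)) y9)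
    (band (rok 112 O (Nat.sub s0 (Nat.add w2 w3)) y10)
    (band (rok 112 O (Nat.sub s0 (Nat.add w2 w4)) y11)
    (band (rok 112 O (Nat.sub s0 (Nat.add w3 w3)) y12)
    (band (rok 112 O (Nat.sub s0 (Nat.add w3 w4)) y13)
    (band (rok 112 O (Nat.sub s0 (Nat.add w4 w4)) y14)
    (sq5 (ones 56 (Nat.mul 2 (Nat.div (Nat.succ V) 2))) s1 s2 s3 s4
      (il V (rsh O (Nat.sub s0 (Nat.add w0 w0)) y0))
      (il V (rsh O (Nat.sub s0 (Nat.add w0 w1)) y1))
      (il V (rsh O (Nat.sub s0 (Nat.add w0 w2)) y2))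
      (il V (rsh O (Nat.sub s0 (Nat.add w0 w3)) y3))
      (il V (rsh O (Nat.sub s0 (Nat.add w0 w4)) y4))
      (il V (rsh O (Nat.sub s0 (Nat.add w1 w1)) y5))
      (il V (rsh O (Nat.sub s0 (Nat.add w1 w2)) y6))
      (il V (rsh O (Nat.sub s0 (Nat.add w1 w3)) y7))
      (il V (rsh O (Nat.sub s0 (Nat.add w1 w4)) y8))
      (il V (rsh O (Nat.sub s0 (Nat.add w2 w2)) y9))
      (il V (rsh O (Nat.sub s0 (Nat.add w2 w3)) y10))
      (il V (rsh O (Nat.sub s0 (Nat.add w2 w4)) y11))
      (il V (rsh O (Nat.sub s0 (Nat.add w3 w3)) y12))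
      (il V (rsh O (Nat.sub s0 (Nat.add w3 w4)) y13))
      (il V (rsh O (Nat.sub s0 (Nat.add w4 w4)) y14)))))))))))))))))

noncomputable def fin1 (X : NL) (V O s0 s1 s2 s3 s4 w0 w1 w2 w3 w4 d0 d1 d2 d3 d4 d5 : Nat) : Bool :=
  band (band (band (Nat.beq (len X) 16) (band (Nat.ble 14 s0) (Nat.ble s0 80)))
      (band (Nat.blt (Nat.add d0 (Nat.add d1 (Nat.add d2 (Nat.add d3 (Nat.add d4 d5)))))
          324518553658426726783156020576256)
        (Nat.beq (Nat.land (Nat.sub (nth X 15) (Nat.mul d5 O)) (Nat.shiftLeft O 111))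
          (Nat.shiftLeft O 111))))
    (fin2 V O s0 s1 s2 s3 s4 w0 w1 w2 w3 w4
      (fy O (Nat.sub s0 (Nat.add w0 w0)) (Nat.add d0 (Nat.shiftLeft 5 (Nat.sub s0 (Nat.add w0 w0)))) (nth X 0))
      (fy O (Nat.sub s0 (Nat.add w0 w1)) 0 (nth X 1))
      (fy O (Nat.sub s0 (Nat.add w0 w2)) 0 (nth X 2))
      (fy O (Nat.sub s0 (Nat.add w0 w3)) 0 (nth X 3))
      (fy O (Nat.sub s0 (Nat.add w0 w4)) 0 (nth X 4))
      (fy O (Nat.sub s0 (Nat.add w1 w1)) (Nat.add d1 (Nat.shiftLeft 5 (Nat.sub s0 (Nat.add w1 w1)))) (nth X 5))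
      (fy O (Nat.sub s0 (Nat.add w1 w2)) 0 (nth X 6))
      (fy O (Nat.sub s0 (Nat.add w1 w3)) 0 (nth X 7))
      (fy O (Nat.sub s0 (Nat.add w1 w4)) 0 (nth X 8))
      (fy O (Nat.sub s0 (Nat.add w2 w2)) (Nat.add d2 (Nat.shiftLeft 5 (Nat.sub s0 (Nat.add w2 w2)))) (nth X 9))
      (fy O (Nat.sub s0 (Nat.add w2 w3)) 0 (nth X 10))
      (fy O (Nat.sub s0 (Nat.add w2 w4)) 0 (nth X 11))
      (fy O (Nat.sub s0 (Nat.add w3 w3)) (Nat.add d3 (Nat.shiftLeft 5 (Nat.sub s0 (Nat.add w3 w3)))) (nth X 12))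
      (fy O (Nat.sub s0 (Nat.add w3 w4)) 0 (nth X 13))
      (fy O (Nat.sub s0 (Nat.add w4 w4)) (Nat.add d4 (Nat.shiftLeft 5 (Nat.sub s0 (Nat.add w4 w4)))) (nth X 14)))

def MC : Nat := nat_lit 5192296858534827628530496329220095

/-- Digit `41 * k + 40`, times `2 ^ w`. -/
noncomputable def dw (a k w : Nat) : Nat :=
  Nat.shiftLeft (Nat.land (Nat.shiftRight a (Nat.add (Nat.mul 4592 k) 4480)) MC) w

/-- One row of the weighted Gershgorin bound, times `2 ^ 21`. -/
noncomputable def row (a k0 k1 k2 k3 k4 w0 w1 w2 w3 w4 w : Nat) : Nat :=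
  Nat.shiftLeft (Nat.succ (Nat.shiftRight (Nat.add (Nat.add (Nat.add (Nat.add (dw a k0 w0)
    (dw a k1 w1)) (dw a k2 w2)) (dw a k3 w3)) (dw a k4 w4)) w)) 21

noncomputable def fin0 (X : NL) (V a s0 s1 s2 s3 s4 w0 w1 w2 w3 w4 : Nat) : Bool :=
  fin1 X V (ones 112 V) s0 s1 s2 s3 s4 w0 w1 w2 w3 w4
    (row a 0 1 2 3 4 w0 w1 w2 w3 w4 w0)
    (row a 1 5 6 7 8 w0 w1 w2 w3 w4 w1)
    (row a 2 6 9 10 11 w0 w1 w2 w3 w4 w2)
    (row a 3 7 10 12 13 w0 w1 w2 w3 w4 w3)
    (row a 4 8 11 13 14 w0 w1 w2 w3 w4 w4)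
    (dw a 15 21)

/-- The final test: the matrices in `X` dominate the Gershgorin bound of the digits of `a`. -/
noncomputable def fin (X : NL) (V a s w : Nat) : Bool :=
  fin0 X V a (Nat.land s 127) (Nat.land (Nat.shiftRight s 7) 31) (Nat.land (Nat.shiftRight s 12) 31)
    (Nat.land (Nat.shiftRight s 17) 31) (Nat.land (Nat.shiftRight s 22) 31)
    (Nat.land w 7) (Nat.land (Nat.shiftRight w 3) 7) (Nat.land (Nat.shiftRight w 6) 7)
    (Nat.land (Nat.shiftRight w 9) 7) (Nat.land (Nat.shiftRight w 12) 7)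

/-! ## Scalar Taylor models at scale `2 ^ 32` -/

structure TM where
  p : P
  r : Nat

/-- Sum of the absolute values of the coefficients. -/
noncomputable def nn (p : P) : Nat :=
  P.rec (motive := fun _ => Nat) 0 (fun a b _ => Nat.add a b) (fun _ _ ic ir => Nat.add ic ir) p

/-- The same above degree `d`. -/
noncomputable def cn (p : P) : Nat → Nat :=
  P.rec (motive := fun _ => Nat → Nat) (fun _ => 0) (fun _ _ _ _ => 0)
    (fun _ r ic ir d => Nat.add (ic d)
      (Nat.rec (motive := fun _ => Nat) (nn r) (fun d' _ => ir d') d)) p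

/-- Reset the bounds. -/
noncomputable def rp (p : P) : P :=
  P.rec (motive := fun _ => P) P.nil (fun a b _ => P.lf a b (Nat.add a b))
    (fun _ _ ic ir => P.cons ic ir) p

noncomputable def lz (a b : Nat) : P := P.lf (Nat.sub a b) (Nat.sub b a) 0

noncomputable def tsh (D sh : Nat) (p : P) (r : Nat) : TM :=
  TM.mk (keep (sz sh) sh p D)
    (Nat.add (Nat.succ (cnt p D)) (Nat.shiftRight (Nat.add (cn p D) r) sh))

/-- The constant `a / 2 ^ 32`. -/
noncomputable def tc (a : Nat) : TM := TM.mk (P.lf a 0 0) 0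
noncomputable def tadd (s t : TM) : TM := TM.mk (padd s.p t.p) (Nat.add s.r t.r)
noncomputable def tmn (k : Nat) (t : TM) : TM := TM.mk (pmn k t.p) (Nat.mul k t.r)
noncomputable def tmm (k : Nat) (t : TM) : TM := TM.mk (pmm k t.p) (Nat.mul k t.r)
/-- Division by `2 ^ sh` and normalisation. -/
noncomputable def tdv (D sh : Nat) (t : TM) : TM := tsh D sh t.p t.r
noncomputable def tmul (D : Nat) (s t : TM) : TM :=
  tsh D 32 (pmul s.p t.p)
    (Nat.add (Nat.add (Nat.mul s.r (nn t.p)) (Nat.mul t.r (nn s.p))) (Nat.mul s.r t.r))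

noncomputable def nwt (D : Nat) (s : TM) (p : P) : P :=
  keep (sz 32) 32 (pmul p (keep (sz 32) 32 (addL 36893488147419103232 0 0 (pmm 1 (pmul s.p p))) D)) D

noncomputable def tin2 (p : P) (w : TM) : TM := TM.mk p (Nat.add (nn w.p) w.r)
noncomputable def tin1 (D : Nat) (s : TM) (p : P) : TM :=
  tin2 p (tdv D 0 (tadd (tmul D s (TM.mk p 0)) (tmm 1 (tc 4294967296))))
/-- Inverse of a function that is at least one. -/
noncomputable def tinv (D : Nat) (s : TM) : TM :=
  tin1 D s (nwt D s (nwt D s (nwt D s (P.lf (Nat.div 18446744073709551616 (va (cst s.p))) 0 0))))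

/-- The first variable, `(l + h - 512 + (h - l) e 0) / 1024`. -/
noncomputable def tka (l h : Nat) : TM :=
  TM.mk (P.cons (lz (Nat.mul (Nat.add l h) 4194304) 2147483648)
    (P.lf (Nat.mul (Nat.sub h l) 4194304) 0 0)) 0
/-- The second variable, `(l + h - 1024 + (h - l) e 1) / 1024`. -/
noncomputable def tcc (l h : Nat) : TM :=
  TM.mk (P.cons (P.cons (lz (Nat.mul (Nat.add l h) 4194304) 4294967296)
    (P.lf (Nat.mul (Nat.sub h l) 4194304) 0 0)) P.nil) 0

/-- Lists of scalar models with their slots. -/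
inductive EL where
  | nil : EL
  | cons (k : Nat) (t : TM) (l : EL) : EL

inductive SL where
  | nil : SL
  | cons (e : EL) (l : SL) : SL

noncomputable def sDn (D a b c d : Nat) : TM :=
  tdv D 0 (tadd (tc 4294967296) (tmn 5 (tmul D (tka a b) (tka a b))))
noncomputable def sR (D a b c d : Nat) : TM :=
  tinv D (sDn D a b c d)
noncomputable def sX (D a b c d : Nat) : TM :=
  tmn 4 (tmul D (tka a b) (sR D a b c d))
noncomputable def sB (D a b c d : Nat) : TM :=
  tdv D 0 (tadd (sR D a b c d) (tmm 1 (tc 2147483648)))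
noncomputable def sC2 (D a b c d : Nat) : TM :=
  tmul D (tcc c d) (tcc c d)
noncomputable def sGa (D a b c d : Nat) : TM :=
  tdv D 0 (tadd (tmn 3 (tmul D (sC2 D a b c d) (tcc c d))) (tmm 3 (tcc c d)))
noncomputable def sE2 (D a b c d : Nat) : TM :=
  tmul D (tdv D 0 (tadd (tc 4294967296) (tmm 3 (sC2 D a b c d)))) (tdv D 0 (tadd (tc 8589934592) (tmm 1 (sC2 D a b c d))))
noncomputable def sX2 (D a b c d : Nat) : TM :=
  tmul D (sX D a b c d) (sX D a b c d)
noncomputable def sB2 (D a b c d : Nat) : TM :=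
  tmul D (sB D a b c d) (sB D a b c d)
noncomputable def sXB (D a b c d : Nat) : TM :=
  tmul D (sX D a b c d) (sB D a b c d)
noncomputable def sX3 (D a b c d : Nat) : TM :=
  tmul D (sX2 D a b c d) (sX D a b c d)
noncomputable def sBG (D a b c d : Nat) : TM :=
  tmul D (sB2 D a b c d) (sGa D a b c d)
noncomputable def sT1 (D a b c d : Nat) : TM :=
  tdv D 4 (tadd (tmn 15 (sX3 D a b c d)) (tadd (tmm 48 (tmul D (sXB D a b c d) (sB D a b c d))) (tmn 64 (tmul D (sB D a b c d) (sBG D a b c d)))))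
noncomputable def sT2 (D a b c d : Nat) : TM :=
  tmul D (sT1 D a b c d) (sT1 D a b c d)
noncomputable def sT3 (D a b c d : Nat) : TM :=
  tmul D (sT2 D a b c d) (sT1 D a b c d)
noncomputable def sXT11 (D a b c d : Nat) : TM :=
  tmul D (sX D a b c d) (sT1 D a b c d)
noncomputable def sXT12 (D a b c d : Nat) : TM :=
  tmul D (sX D a b c d) (sT2 D a b c d)
noncomputable def sXT21 (D a b c d : Nat) : TM :=
  tmul D (sX2 D a b c d) (sT1 D a b c d)
noncomputable def sXT22 (D a b c d : Nat) : TM :=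
  tmul D (sX2 D a b c d) (sT2 D a b c d)
noncomputable def sXT31 (D a b c d : Nat) : TM :=
  tmul D (sX3 D a b c d) (sT1 D a b c d)
noncomputable def sXT32 (D a b c d : Nat) : TM :=
  tmul D (sX3 D a b c d) (sT2 D a b c d)
noncomputable def sBX01 (D a b c d : Nat) : TM :=
  tmul D (sB D a b c d) (sT1 D a b c d)
noncomputable def sBX02 (D a b c d : Nat) : TM :=
  tmul D (sB D a b c d) (sT2 D a b c d)
noncomputable def sBX11 (D a b c d : Nat) : TM :=
  tmul D (sB D a b c d) (sXT11 D a b c d)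
noncomputable def sBX12 (D a b c d : Nat) : TM :=
  tmul D (sB D a b c d) (sXT12 D a b c d)
noncomputable def sBX20 (D a b c d : Nat) : TM :=
  tmul D (sB D a b c d) (sX2 D a b c d)
noncomputable def sBX21 (D a b c d : Nat) : TM :=
  tmul D (sB D a b c d) (sXT21 D a b c d)
noncomputable def sBX22 (D a b c d : Nat) : TM :=
  tmul D (sB D a b c d) (sXT22 D a b c d)
noncomputable def sAX00 (D a b c d : Nat) : TM :=
  tdv D 4 (tmm 15 (sX D a b c d))
noncomputable def sAX01 (D a b c d : Nat) : TM :=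
  tdv D 4 (tmm 15 (sXT11 D a b c d))
noncomputable def sAX02 (D a b c d : Nat) : TM :=
  tdv D 4 (tmm 15 (sXT12 D a b c d))
noncomputable def sAX10 (D a b c d : Nat) : TM :=
  tdv D 4 (tmm 15 (sX2 D a b c d))
noncomputable def sAX11 (D a b c d : Nat) : TM :=
  tdv D 4 (tmm 15 (sXT21 D a b c d))
noncomputable def sAX12 (D a b c d : Nat) : TM :=
  tdv D 4 (tmm 15 (sXT22 D a b c d))
noncomputable def sAX20 (D a b c d : Nat) : TM :=
  tdv D 4 (tmm 15 (sX3 D a b c d))
noncomputable def sAX21 (D a b c d : Nat) : TM :=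
  tdv D 4 (tmm 15 (sXT31 D a b c d))
noncomputable def sAX22 (D a b c d : Nat) : TM :=
  tdv D 4 (tmm 15 (sXT32 D a b c d))
noncomputable def sCT000 (D a b c d : Nat) : TM :=
  tdv D 6 (tadd (tmn 48 (sB2 D a b c d)) (tadd (tmm 45 (sX2 D a b c d)) (tmn 60 (sXT11 D a b c d))))
noncomputable def sCT001 (D a b c d : Nat) : TM :=
  tdv D 1 (tadd (tmn 2 (sBG D a b c d)) (tadd (tmm 1 (sXB D a b c d)) (tmm 2 (sBX01 D a b c d))))
noncomputable def sCT002 (D a b c d : Nat) : TM :=
  tdv D 1 (tmul D (sB2 D a b c d) (sE2 D a b c d))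
noncomputable def sCT010 (D a b c d : Nat) : TM :=
  tmul D (sT1 D a b c d) (sCT000 D a b c d)
noncomputable def sCT011 (D a b c d : Nat) : TM :=
  tmul D (sT1 D a b c d) (sCT001 D a b c d)
noncomputable def sCT012 (D a b c d : Nat) : TM :=
  tmul D (sT1 D a b c d) (sCT002 D a b c d)
noncomputable def sCT100 (D a b c d : Nat) : TM :=
  tmul D (sX D a b c d) (sCT000 D a b c d)
noncomputable def sCT101 (D a b c d : Nat) : TM :=
  tmul D (sX D a b c d) (sCT001 D a b c d)
noncomputable def sCT102 (D a b c d : Nat) : TM :=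
  tmul D (sX D a b c d) (sCT002 D a b c d)
noncomputable def sCT110 (D a b c d : Nat) : TM :=
  tmul D (sXT11 D a b c d) (sCT000 D a b c d)
noncomputable def sCT111 (D a b c d : Nat) : TM :=
  tmul D (sXT11 D a b c d) (sCT001 D a b c d)
noncomputable def sCT112 (D a b c d : Nat) : TM :=
  tmul D (sXT11 D a b c d) (sCT002 D a b c d)
noncomputable def sCT200 (D a b c d : Nat) : TM :=
  tmul D (sX2 D a b c d) (sCT000 D a b c d)
noncomputable def sCT201 (D a b c d : Nat) : TM :=
  tmul D (sX2 D a b c d) (sCT001 D a b c d)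
noncomputable def sCT202 (D a b c d : Nat) : TM :=
  tmul D (sX2 D a b c d) (sCT002 D a b c d)
noncomputable def sCT210 (D a b c d : Nat) : TM :=
  tmul D (sXT21 D a b c d) (sCT000 D a b c d)
noncomputable def sCT211 (D a b c d : Nat) : TM :=
  tmul D (sXT21 D a b c d) (sCT001 D a b c d)
noncomputable def sCT212 (D a b c d : Nat) : TM :=
  tmul D (sXT21 D a b c d) (sCT002 D a b c d)
noncomputable def sBC00 (D a b c d : Nat) : TM :=
  tmul D (sB D a b c d) (sCT000 D a b c d)
noncomputable def sBC01 (D a b c d : Nat) : TM :=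
  tmul D (sB D a b c d) (sCT001 D a b c d)
noncomputable def sBC02 (D a b c d : Nat) : TM :=
  tmul D (sB D a b c d) (sCT002 D a b c d)
noncomputable def sBC10 (D a b c d : Nat) : TM :=
  tmul D (sB D a b c d) (sCT010 D a b c d)
noncomputable def sBC11 (D a b c d : Nat) : TM :=
  tmul D (sB D a b c d) (sCT011 D a b c d)
noncomputable def sBC12 (D a b c d : Nat) : TM :=
  tmul D (sB D a b c d) (sCT012 D a b c d)
noncomputable def sBB1 (D a b c d : Nat) : TM :=
  tmul D (sB D a b c d) (sBX01 D a b c d)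
noncomputable def sBB2 (D a b c d : Nat) : TM :=
  tmul D (sB D a b c d) (sBX02 D a b c d)

noncomputable def sS1 (D a b c d : Nat) : EL :=
  EL.cons 0 (tdv D 7 (tadd (tmn 252 (tc 4294967296)) (tmm 225 (sX2 D a b c d)))) (EL.cons 1 (tdv D 4 (tmn 30 (sXB D a b c d))) (EL.cons 5 (tdv D 1 (tadd (tmn 3 (tc 4294967296)) (tmm 4 (sB2 D a b c d)))) (EL.cons 9 (tdv D 1 (tmn 3 (tc 4294967296))) EL.nil)))
noncomputable def sS2 (D a b c d : Nat) : EL :=
  EL.cons 0 (tdv D 7 (tadd (tmn 252 (sT1 D a b c d)) (tadd (tmm 225 (sXT21 D a b c d)) (tmm 720 (sCT100 D a b c d))))) (EL.cons 1 (tdv D 4 (tadd (tmn 30 (sBX11 D a b c d)) (tadd (tmm 45 (sCT101 D a b c d)) (tmn 48 (sBC00 D a b c d))))) (EL.cons 5 (tdv D 1 (tadd (tmn 3 (sT1 D a b c d)) (tadd (tmm 4 (sBB1 D a b c d)) (tmn 12 (sBC01 D a b c d))))) (EL.cons 9 (tdv D 1 (tmn 3 (sT1 D a b c d))) (EL.cons 2 (tdv D 4 (tmm 45 (sCT102 D a b c d))) (EL.cons 6 (tmn 3 (sBC02 D a b c d)) EL.nil)))))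
noncomputable def sS3 (D a b c d : Nat) : EL :=
  EL.cons 0 (tdv D 7 (tadd (tmn 252 (sT2 D a b c d)) (tadd (tmm 225 (sXT22 D a b c d)) (tmm 1440 (sCT110 D a b c d))))) (EL.cons 1 (tdv D 4 (tadd (tmn 30 (sBX12 D a b c d)) (tadd (tmm 90 (sCT111 D a b c d)) (tmn 96 (sBC10 D a b c d))))) (EL.cons 5 (tdv D 1 (tadd (tmn 3 (sT2 D a b c d)) (tadd (tmm 4 (sBB2 D a b c d)) (tmn 24 (sBC11 D a b c d))))) (EL.cons 9 (tdv D 1 (tmn 3 (sT2 D a b c d))) (EL.cons 2 (tdv D 4 (tmm 90 (sCT112 D a b c d))) (EL.cons 6 (tmn 6 (sBC12 D a b c d)) EL.nil)))))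
noncomputable def sS4 (D a b c d : Nat) : EL :=
  EL.cons 0 (tdv D 7 (tmn 225 (sX2 D a b c d))) (EL.cons 1 (tdv D 3 (tmm 15 (sXB D a b c d))) (EL.cons 5 (tmn 2 (sB2 D a b c d)) EL.nil))
noncomputable def sS5 (D a b c d : Nat) : EL :=
  EL.cons 0 (tdv D 7 (tmn 225 (sXT21 D a b c d))) (EL.cons 1 (tdv D 3 (tmm 15 (sBX11 D a b c d))) (EL.cons 5 (tmn 2 (sBB1 D a b c d)) EL.nil))
noncomputable def sS6 (D a b c d : Nat) : EL :=
  EL.cons 0 (tdv D 7 (tmn 225 (sXT22 D a b c d))) (EL.cons 1 (tdv D 3 (tmm 15 (sBX12 D a b c d))) (EL.cons 5 (tmn 2 (sBB2 D a b c d)) EL.nil))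
noncomputable def sS7 (D a b c d : Nat) : EL :=
  EL.cons 12 (tmn 2 (tc 4294967296)) (EL.cons 3 (tmm 1 (sAX00 D a b c d)) (EL.cons 7 (tmm 1 (sB D a b c d)) EL.nil))
noncomputable def sS8 (D a b c d : Nat) : EL :=
  EL.cons 12 (tmn 2 (sT1 D a b c d)) (EL.cons 3 (tdv D 0 (tadd (tmm 1 (sAX01 D a b c d)) (tmm 3 (sCT000 D a b c d)))) (EL.cons 7 (tdv D 0 (tadd (tmm 1 (sBX01 D a b c d)) (tmm 3 (sCT001 D a b c d)))) (EL.cons 10 (tmm 3 (sCT002 D a b c d)) EL.nil)))
noncomputable def sS9 (D a b c d : Nat) : EL :=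
  EL.cons 12 (tmn 2 (sT2 D a b c d)) (EL.cons 3 (tdv D 0 (tadd (tmm 1 (sAX02 D a b c d)) (tmm 6 (sCT010 D a b c d)))) (EL.cons 7 (tdv D 0 (tadd (tmm 1 (sBX02 D a b c d)) (tmm 6 (sCT011 D a b c d)))) (EL.cons 10 (tmm 6 (sCT012 D a b c d)) EL.nil)))
noncomputable def sS10 (D a b c d : Nat) : EL :=
  EL.cons 3 (tmm 1 (sAX00 D a b c d)) (EL.cons 7 (tmm 1 (sB D a b c d)) EL.nil)
noncomputable def sS11 (D a b c d : Nat) : EL :=
  EL.cons 3 (tmm 1 (sAX01 D a b c d)) (EL.cons 7 (tmm 1 (sBX01 D a b c d)) EL.nil)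
noncomputable def sS12 (D a b c d : Nat) : EL :=
  EL.cons 3 (tmm 1 (sAX02 D a b c d)) (EL.cons 7 (tmm 1 (sBX02 D a b c d)) EL.nil)
noncomputable def sS13 (D a b c d : Nat) : EL :=
  EL.cons 4 (sAX00 D a b c d) (EL.cons 8 (sB D a b c d) EL.nil)
noncomputable def sS14 (D a b c d : Nat) : EL :=
  EL.cons 4 (sAX01 D a b c d) (EL.cons 8 (sBX01 D a b c d) EL.nil)
noncomputable def sS15 (D a b c d : Nat) : EL :=
  EL.cons 4 (sAX02 D a b c d) (EL.cons 8 (sBX02 D a b c d) EL.nil)
noncomputable def sS16 (D a b c d : Nat) : EL :=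
  EL.cons 4 (sAX10 D a b c d) (EL.cons 8 (sXB D a b c d) EL.nil)
noncomputable def sS17 (D a b c d : Nat) : EL :=
  EL.cons 4 (sAX11 D a b c d) (EL.cons 8 (sBX11 D a b c d) EL.nil)
noncomputable def sS18 (D a b c d : Nat) : EL :=
  EL.cons 4 (sAX12 D a b c d) (EL.cons 8 (sBX12 D a b c d) EL.nil)
noncomputable def sS19 (D a b c d : Nat) : EL :=
  EL.cons 4 (sAX20 D a b c d) (EL.cons 8 (sBX20 D a b c d) EL.nil)
noncomputable def sS20 (D a b c d : Nat) : EL :=
  EL.cons 4 (sAX21 D a b c d) (EL.cons 8 (sBX21 D a b c d) EL.nil)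
noncomputable def sS21 (D a b c d : Nat) : EL :=
  EL.cons 4 (sAX22 D a b c d) (EL.cons 8 (sBX22 D a b c d) EL.nil)
noncomputable def sS22 (D a b c d : Nat) : EL :=
  EL.cons 4 (tmn 3 (sCT000 D a b c d)) (EL.cons 8 (tmn 3 (sCT001 D a b c d)) (EL.cons 11 (tmn 3 (sCT002 D a b c d)) EL.nil))
noncomputable def sS23 (D a b c d : Nat) : EL :=
  EL.cons 4 (tmn 3 (sCT010 D a b c d)) (EL.cons 8 (tmn 3 (sCT011 D a b c d)) (EL.cons 11 (tmn 3 (sCT012 D a b c d)) EL.nil))
noncomputable def sS24 (D a b c d : Nat) : EL :=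
  EL.cons 4 (tmn 3 (sCT100 D a b c d)) (EL.cons 8 (tmn 3 (sCT101 D a b c d)) (EL.cons 11 (tmn 3 (sCT102 D a b c d)) EL.nil))
noncomputable def sS25 (D a b c d : Nat) : EL :=
  EL.cons 4 (tmn 3 (sCT110 D a b c d)) (EL.cons 8 (tmn 3 (sCT111 D a b c d)) (EL.cons 11 (tmn 3 (sCT112 D a b c d)) EL.nil))
noncomputable def sS26 (D a b c d : Nat) : EL :=
  EL.cons 4 (tmn 3 (sCT200 D a b c d)) (EL.cons 8 (tmn 3 (sCT201 D a b c d)) (EL.cons 11 (tmn 3 (sCT202 D a b c d)) EL.nil))
noncomputable def sS27 (D a b c d : Nat) : EL :=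
  EL.cons 4 (tmn 3 (sCT210 D a b c d)) (EL.cons 8 (tmn 3 (sCT211 D a b c d)) (EL.cons 11 (tmn 3 (sCT212 D a b c d)) EL.nil))
noncomputable def sS28 (D a b c d : Nat) : EL :=
  EL.cons 13 (tmm 1 (tc 4294967296)) EL.nil
noncomputable def sS29 (D a b c d : Nat) : EL :=
  EL.cons 13 (tmm 1 (sT1 D a b c d)) EL.nil
noncomputable def sS30 (D a b c d : Nat) : EL :=
  EL.cons 13 (tmm 1 (sT2 D a b c d)) EL.nil
noncomputable def sS31 (D a b c d : Nat) : EL :=
  EL.cons 13 (tmm 1 (sX D a b c d)) EL.nil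
noncomputable def sS32 (D a b c d : Nat) : EL :=
  EL.cons 13 (tmm 1 (sXT11 D a b c d)) EL.nil
noncomputable def sS33 (D a b c d : Nat) : EL :=
  EL.cons 13 (tmm 1 (sXT12 D a b c d)) EL.nil
noncomputable def sS34 (D a b c d : Nat) : EL :=
  EL.cons 14 (tmn 2 (tc 4294967296)) EL.nil
noncomputable def sS35 (D a b c d : Nat) : EL :=
  EL.cons 14 (tmn 2 (sT1 D a b c d)) EL.nil
noncomputable def sS36 (D a b c d : Nat) : EL :=
  EL.cons 14 (tmn 2 (sT2 D a b c d)) EL.nil
noncomputable def sS37 (D a b c d : Nat) : EL :=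
  EL.cons 14 (tmn 2 (sX D a b c d)) EL.nil
noncomputable def sS38 (D a b c d : Nat) : EL :=
  EL.cons 14 (tmn 2 (sXT11 D a b c d)) EL.nil
noncomputable def sS39 (D a b c d : Nat) : EL :=
  EL.cons 14 (tmn 2 (sXT12 D a b c d)) EL.nil
noncomputable def sS40 (D a b c d : Nat) : EL :=
  EL.cons 14 (tmn 2 (sX2 D a b c d)) EL.nil
noncomputable def sS41 (D a b c d : Nat) : EL :=
  EL.cons 14 (tmn 2 (sXT21 D a b c d)) EL.nil
noncomputable def sS42 (D a b c d : Nat) : EL :=
  EL.cons 14 (tmn 2 (sXT22 D a b c d)) EL.nil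
noncomputable def sS43 (D a b c d : Nat) : EL :=
  EL.cons 14 (tmn 2 (sX3 D a b c d)) EL.nil
noncomputable def sS44 (D a b c d : Nat) : EL :=
  EL.cons 14 (tmn 2 (sXT31 D a b c d)) EL.nil
noncomputable def sS45 (D a b c d : Nat) : EL :=
  EL.cons 14 (tmn 2 (sXT32 D a b c d)) EL.nil
noncomputable def sS46 (D a b c d : Nat) : EL :=
  EL.cons 14 (tmn 2 (sT3 D a b c d)) EL.nil
noncomputable def sS47 (D a b c d : Nat) : EL :=
  EL.cons 15 (tc 4294967296) EL.nil
noncomputable def sS48 (D a b c d : Nat) : EL :=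
  EL.cons 15 (sT1 D a b c d) EL.nil
noncomputable def sS49 (D a b c d : Nat) : EL :=
  EL.cons 15 (sT2 D a b c d) EL.nil

/-- The list of shape matrices on a box. -/
noncomputable def shp (D a b c d : Nat) : SL :=
  SL.cons (sS1 D a b c d)
    (SL.cons (sS2 D a b c d)
    (SL.cons (sS3 D a b c d)
    (SL.cons (sS4 D a b c d)
    (SL.cons (sS5 D a b c d)
    (SL.cons (sS6 D a b c d)
    (SL.cons (sS7 D a b c d)
    (SL.cons (sS8 D a b c d)
    (SL.cons (sS9 D a b c d)
    (SL.cons (sS10 D a b c d)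
    (SL.cons (sS11 D a b c d)
    (SL.cons (sS12 D a b c d)
    (SL.cons (sS13 D a b c d)
    (SL.cons (sS14 D a b c d)
    (SL.cons (sS15 D a b c d)
    (SL.cons (sS16 D a b c d)
    (SL.cons (sS17 D a b c d)
    (SL.cons (sS18 D a b c d)
    (SL.cons (sS19 D a b c d)
    (SL.cons (sS20 D a b c d)
    (SL.cons (sS21 D a b c d)
    (SL.cons (sS22 D a b c d)
    (SL.cons (sS23 D a b c d)
    (SL.cons (sS24 D a b c d)
    (SL.cons (sS25 D a b c d)
    (SL.cons (sS26 D a b c d)
    (SL.cons (sS27 D a b c d)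
    (SL.cons (sS28 D a b c d)
    (SL.cons (sS29 D a b c d)
    (SL.cons (sS30 D a b c d)
    (SL.cons (sS31 D a b c d)
    (SL.cons (sS32 D a b c d)
    (SL.cons (sS33 D a b c d)
    (SL.cons (sS34 D a b c d)
    (SL.cons (sS35 D a b c d)
    (SL.cons (sS36 D a b c d)
    (SL.cons (sS37 D a b c d)
    (SL.cons (sS38 D a b c d)
    (SL.cons (sS39 D a b c d)
    (SL.cons (sS40 D a b c d)
    (SL.cons (sS41 D a b c d)
    (SL.cons (sS42 D a b c d)
    (SL.cons (sS43 D a b c d)
    (SL.cons (sS44 D a b c d)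
    (SL.cons (sS45 D a b c d)
    (SL.cons (sS46 D a b c d)
    (SL.cons (sS47 D a b c d)
    (SL.cons (sS48 D a b c d)
    (SL.cons (sS49 D a b c d)
    SL.nil))))))))))))))))))))))))))))))))))))))))))))))))

/-! ## Contraction of the shape variables -/

noncomputable def clf (c w : P) : P :=
  P.rec (motive := fun _ => P) P.nil (fun a b _ => zsm a b w) (fun _ _ _ _ => P.nil) c

noncomputable def ctr1 (W : Nat → P) (p : P) : Nat → P :=
  P.rec (motive := fun _ => Nat → P) (fun _ => P.nil) (fun a b _ j => zsm a b (W j))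
    (fun c _ _ ir j => padd (clf c (W j)) (ir (Nat.succ j))) p

/-- `∑ i j, (coefficient of X ^ i * Y ^ j) • W i j`. -/
noncomputable def ctr0 (W : Nat → Nat → P) (p : P) : Nat → P :=
  P.rec (motive := fun _ => Nat → P) (fun _ => P.nil) (fun a b _ i => zsm a b (W i 0))
    (fun c _ _ ir i => padd (ctr1 (W i) c 0) (ir (Nat.succ i))) p

/-- The number `(x - 8) ^ i`. -/
noncomputable def pw8 (x i : Nat) : P :=
  Nat.rec (motive := fun _ => P) (P.lf 1 0 1) (fun _ ih => zsm x 8 ih) i

/-- The numbers `(k * s - 8) ^ i`, `k = 0, …, n`, at bit positions `k * z`. -/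
noncomputable def vec (n z i : Nat) : P :=
  Nat.rec (motive := fun _ => P) P.nil
    (fun k ih => padd (place (Nat.mul k z) (pw8 (Nat.mul k (Nat.div 16 n)) i)) ih) (Nat.succ n)

/-- Outer product of two leaves. -/
noncomputable def lmul (p q : P) : P :=
  P.rec (motive := fun _ => P) P.nil
    (fun a b m => P.rec (motive := fun _ => P) P.nil
      (fun c d m' => P.lf (Nat.add (Nat.mul a c) (Nat.mul b d)) (Nat.add (Nat.mul a d) (Nat.mul b c))
        (Nat.mul 2 (Nat.mul m m'))) (fun _ _ _ _ => P.nil) q)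
    (fun _ _ _ _ => P.nil) p

/-- Values of the monomials on the grid. -/
noncomputable def wpt (n3 n4 i j : Nat) : P :=
  pmn (Nat.pow 8 (Nat.sub 5 (Nat.add i j)))
    (lmul (vec n4 112 j) (vec n3 (Nat.mul 112 (Nat.succ n4)) i))

noncomputable def pos (D i j : Nat) : Nat :=
  Nat.add (Nat.div (Nat.mul i (Nat.sub (Nat.add (Nat.mul 2 D) 3) i)) 2) j

/-- Coefficients of a monomial and of its two second derivatives. -/
noncomputable def wco (i j : Nat) : P :=
  P.lf (Nat.add (Nat.shiftLeft 1 (Nat.mul 112 (pos 5 i j)))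
      (Nat.add (Nat.shiftLeft (Nat.mul i (Nat.sub i 1))
          (Nat.mul 112 (Nat.add 21 (pos 3 (Nat.sub i 2) j))))
        (Nat.shiftLeft (Nat.mul j (Nat.sub j 1))
          (Nat.mul 112 (Nat.add 31 (pos 3 i (Nat.sub j 2)))))))
    0 20

noncomputable def sxp (Q : Nat) (W : Nat → Nat → P) (e : EL) : P :=
  EL.rec (motive := fun _ => P) P.nil
    (fun k t _ ih => padd (place (Nat.mul 112 (Nat.mul Q k)) (ctr0 W t.p 0)) ih) e

noncomputable def sx (Q : Nat) (W : Nat → Nat → P) (e : EL) : P :=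
  padd (sxp Q W e) (place (Nat.mul 1792 Q) (sxp 41 wco e))

/-- The number `f t` in digit `41 * k + 40`. -/
noncomputable def srl (f : TM → Nat) (e : EL) : P :=
  EL.rec (motive := fun _ => P) P.nil
    (fun k t _ ih => addL (Nat.shiftLeft (f t) (Nat.add (Nat.mul 4592 k) 4480)) 0 (f t) ih) e

noncomputable def smap (f : EL → P) (S : SL) : PL :=
  SL.rec (motive := fun _ => PL) PL.nil (fun e _ ih => PL.cons (f e) ih) S

noncomputable def eok (e : EL) : Bool :=
  EL.rec (motive := fun _ => Bool) true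
    (fun k t _ ih => band (band (Nat.blt k 16) (band (dp t.p 2) (dg t.p 5))) ih) e

noncomputable def sok (S : SL) : Bool :=
  SL.rec (motive := fun _ => Bool) true (fun e _ ih => band (eok e) ih) S

def MG : Nat := nat_lit 115792089237316195423570985008687907853269984665640564039457584007913129639935
def HG : Nat := nat_lit 57896044618658097711785492504343953926634992332820282019728792003956564819968
def HC : Nat := nat_lit 2596148429267413814265248164610048
def W0 : Nat := nat_lit 4115101717688653400781421999509022766226563880568164848236219601952464070860580992004960219920438650116628465097821376726655493699822901043289634690354376959385516981134773230046659281732629885417383525558100316872466610663025436022435071657465302934085390553317572644671895903707926859974824176501260566602933206526681955772140359233084240051563464918606302730284928032779466164458145794057698062380707414506496808396612588164829372550602136542849594594619944850247804390811799646373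8131120164401875384226314499371924685371918268788111961089296815028477395877517235354421913767496402047846781645410698405898163857252064012911557253766561776993248791792415627962869310824848128568734783380842438615233189473670081298376165381646380352807505600972115408389214010093862805945847038820154203178625651245710106414020019718219632484298038541919109559997372646459459787603911828443730718837423230620346855979719290543095432383247270256686635125444566745560543741205488536660311635140160680832619586656208269125385422204862480905568267987717828281523902727174305867782252234931482874813939528808368069481946322890337962329819787255588175747309586382664523311539481236907311270536822696430553120002812712139128520111460049592867072245533022148350644264464894352377062487953921061212936997803901477492494951578296393743172121346254901397256564019933002858496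
def W1 : Nat := nat_lit 39068863052250606675316075180094813379118563465625959535497264811348713812108888329534808586799660235453617301875259112929559791367442376603818828043576933820395970239366712026676636677793977757247428845146889182988450941074567504823695856377002020473088788923636668794454400145994078297537501295312870373548656130240661795740331846079244801745413344707898390719037397678676690780293134294656338572558092198720764174880465063484187354975585871398143837181445044438266512308313245213795867736191464033599029545079690040138329234512622292243947009947314808618327728298967066887903128504563525037194243131621862641777010278333190379084615516160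
def W2 : Nat := nat_lit 2743062034396844341627968125593605163331727453631412387395785910744806955552859528964883901248646302067601767918442659866633990108530856093293651463902910566044046219354402767637457749637808516626928467145732197934319604152792149089072063320003099368065262648341865922602888854740158056697330403360374785

noncomputable def sq (n : Nat) : Nat := Nat.mul (Nat.div 16 n) (Nat.div 16 n)
noncomputable def nok (n : Nat) : Bool :=
  band (Nat.ble n 8) (Nat.beq (Nat.mul n (Nat.div 16 n)) 16)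

/-- Entrywise bound for all errors; `A` bounds the second derivatives in the first three
variables, `B` the coefficients, `E` the error of the model. -/
noncomputable def etot (A B E : P) (n3 n4 : Nat) : Nat :=
  Nat.add (Nat.add (Nat.mul (va A) W0)
      (Nat.mul (va B) (Nat.add (Nat.mul (sq n3) W1) (Nat.mul (sq n4) W2))))
    (Nat.shiftLeft (va E) 9)

noncomputable def pair5 (A B E Tv : P) (n0 n1 n2 n3 n4 s w Q : Nat) : Bool :=
  band (band (band (okm (Nat.pow 2 104) A) (dg Tv 5))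
      (band (okm (Nat.pow 2 96) B) (okm (Nat.pow 2 98) E)))
    (fin (gm n0 (Nat.mul (Nat.succ n1) (Nat.mul (Nat.succ n2) Q))
        (gm n1 (Nat.mul (Nat.succ n2) Q) (gm n2 Q (lfs Q))) (pre 8 Tv 5))
      (Nat.mul (Nat.succ n0) (Nat.mul (Nat.succ n1) (Nat.mul (Nat.succ n2) Q)))
      (etot A B E n3 n4) s w)

noncomputable def pair4 (Tc E Tv : P) (n0 n1 n2 n3 n4 s w Q : Nat) : Bool :=
  pair5 (nm (padd (pmn (sq n0) (nm (der2 Tc 0)))
      (padd (pmn (sq n1) (nm (der2 Tc 1))) (pmn (sq n2) (nm (der2 Tc 2))))))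
    (nm Tc) (nm E) Tv n0 n1 n2 n3 n4 s w Q

noncomputable def pair3 (Tc E Tv : P) (n0 n1 n2 n3 n4 s w Q : Nat) : Bool :=
  band (band (band (okm HC Tc) (okm HC Tv))
      (band (dlt 112 (ones 112 656) 74 Tc) (dlt 112 (ones 112 (Nat.mul 16 Q)) 86 Tv)))
    (pair4 (setm (Nat.pow 2 74) Tc) E (setm (Nat.pow 2 86) Tv) n0 n1 n2 n3 n4 s w Q)

noncomputable def pair2 (T E : P) (n0 n1 n2 n3 n4 s w Q : Nat) : Bool :=
  band (band (band (okm HC T) (dg T 5))
      (okm HC (keep (nzs 112 (Nat.add (Nat.mul 16 Q) 656) 0) 0 T 5)))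
    (pair3 (phi (Nat.mul 1792 Q) (keep (nzs 112 (Nat.add (Nat.mul 16 Q) 656) 0) 0 T 5)) E
      (plo (Nat.mul 1792 Q) (keep (nzs 112 (Nat.add (Nat.mul 16 Q) 656) 0) 0 T 5))
      n0 n1 n2 n3 n4 s w Q)

/-- `G1` is the Taylor polynomial of the first factor, `EG` its error. -/
noncomputable def pair1 (S : SL) (G1 EG : P) (n0 n1 n2 n3 n4 s w Q : Nat) : Bool :=
  band (band (okm HG G1) (band (okm HG (nm G1)) (okm HG (nm EG))))
    (pair2 (tens0 256 MG (smap (sx Q (wpt n3 n4)) S) G1)
      (addL (ones 112 656) 0 1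
        (padd (comb 256 MG (smap (srl (fun t => t.r)) S) (va (nm G1)) 0)
          (comb 256 MG (smap (srl (fun t => Nat.add (nn t.p) t.r)) S) (va (nm EG)) 0)))
      n0 n1 n2 n3 n4 s w Q)

noncomputable def pair0 (D : Nat) (S : SL) (Gs : P) (n0 n1 n2 n3 n4 s w : Nat) : Bool :=
  band (band (band (okm HG Gs) (okm HG (cr Gs D)))
      (band (nok n0) (band (nok n1) (band (nok n2) (band (nok n3) (nok n4))))))
    (pair1 S (tr (keep (nzs 256 50 158) 158 Gs D) 5)
      (padd (kerr (nzs 256 50 158) 158 (ones 256 50) Gs D) (cr (keep (nzs 256 50 158) 158 Gs D) 5))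
      n0 n1 n2 n3 n4 s w (Nat.mul (Nat.succ n3) (Nat.succ n4)))

noncomputable def shift3 (G : P) (l0 h0 l1 h1 l2 h2 : Nat) : P :=
  sft0 (Nat.add l0 h0) 0 (Nat.sub h0 l0)
    (lift (sft0 (Nat.add l1 h1) 0 (Nat.sub h1 l1))
      (lift (lift (sft0 (Nat.add l2 h2) 0 (Nat.sub h2 l2))) G))

noncomputable def mu1 (mu k : Nat) : TM :=
  TM.mk (P.lf 0 (Nat.shiftLeft (Nat.land (Nat.shiftRight mu k) 65535) 22) 0) 0

/-- The multiplier of the constraint: a nonpositive diagonal matrix. -/
noncomputable def mult (mu : Nat) : EL :=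
  EL.cons 0 (mu1 mu 0) (EL.cons 5 (mu1 mu 16) (EL.cons 9 (mu1 mu 32) (EL.cons 12 (mu1 mu 48)
    (EL.cons 14 (mu1 mu 64) (EL.cons 15 (mu1 mu 80) EL.nil)))))

/-- Identity on the slots 0, 5, 9, 12, 15. -/
noncomputable def idm (_ : Nat) : EL :=
  EL.cons 0 (tc 4294967296) (EL.cons 5 (tc 4294967296) (EL.cons 9 (tc 4294967296)
    (EL.cons 12 (tc 4294967296) (EL.cons 15 (tc 4294967296) EL.nil))))

inductive Tr where
  | lf (n s mu : Nat) : Tr
  | skip : Tr
  | sp (i m : Nat) (l r : Tr) : Tr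

/-- The box lies outside the domain (coordinates in units of `1/512`). -/
noncomputable def outside (l0 h0 l1 l2 : Nat) : Bool :=
  Nat.blt (Nat.mul (Nat.mul 25 (Nat.mul (Nat.sub 512 l1) (Nat.sub 512 l1)))
      (Nat.sub 262144 (Nat.mul l2 l2)))
    (Nat.mul (Nat.mul l1 l1) (Nat.add (Nat.mul 25 (Nat.mul (Nat.sub 512 h0) (Nat.sub 512 h0)))
      (Nat.mul 4 (Nat.mul l0 l0))))

noncomputable def leaf (D : Nat) (G : P) (Z : Nat → EL) (S : SL) (n s mu l0 h0 l1 h1 l2 h2 : Nat) :
    Bool :=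
  pair0 D (SL.cons (Z mu) S) (shift3 G l0 h0 l1 h1 l2 h2) (Nat.land n 15)
    (Nat.land (Nat.shiftRight n 4) 15) (Nat.land (Nat.shiftRight n 8) 15)
    (Nat.land (Nat.shiftRight n 12) 15) (Nat.land (Nat.shiftRight n 16) 15) s (Nat.shiftRight n 20)

noncomputable def go (D : Nat) (G : P) (Z : Nat → EL) (S : SL) (t : Tr) :
    Nat → Nat → Nat → Nat → Nat → Nat → Bool :=
  Tr.rec (motive := fun _ => Nat → Nat → Nat → Nat → Nat → Nat → Bool)
    (fun n s mu l0 h0 l1 h1 l2 h2 => leaf D G Z S n s mu l0 h0 l1 h1 l2 h2)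
    (fun l0 h0 l1 _ l2 _ => outside l0 h0 l1 l2)
    (fun i m _ _ il ir l0 h0 l1 h1 l2 h2 =>
      Nat.rec (motive := fun _ => Bool) (band (il l0 m l1 h1 l2 h2) (ir m h0 l1 h1 l2 h2))
        (fun i' _ => Nat.rec (motive := fun _ => Bool)
          (band (il l0 h0 l1 m l2 h2) (ir l0 h0 m h1 l2 h2))
          (fun _ _ => band (il l0 h0 l1 h1 l2 m) (ir l0 h0 l1 h1 m h2)) i') i) t

/-! ## Construction of the global polynomial -/

/-- Substitution of the polynomials of a list for the variables. -/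
noncomputable def cmp (p : P) : PL → P :=
  P.rec (motive := fun _ => PL → P) (fun _ => P.nil) (fun a b m _ => P.lf a b m)
    (fun _ _ ic ir L => PL.rec (motive := fun _ => P) (ic PL.nil)
      (fun h t _ => padd (ic t) (pmul h (ir L))) L) p

noncomputable def tcons (c r : P) : P :=
  P.rec (motive := fun _ => P)
    (P.rec (motive := fun _ => P) P.nil (fun a b m => P.lf a b m) (fun _ _ _ _ => P.cons c P.nil) c)
    (fun _ _ _ => P.cons c r) (fun _ _ _ _ => P.cons c r) r

/-- Normal form of a scalar polynomial. -/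
noncomputable def trim (p : P) : P :=
  P.rec (motive := fun _ => P) P.nil
    (fun a b _ => Bool.rec (motive := fun _ => P)
      (P.lf (Nat.sub a b) (Nat.sub b a) (Nat.add (Nat.sub a b) (Nat.sub b a))) P.nil (Nat.beq a b))
    (fun _ _ ic ir => tcons ic ir) p

/-- Pack scalar polynomials into slots of width 256, starting with slot `k`. -/
noncomputable def pack (S : PL) : Nat → P :=
  PL.rec (motive := fun _ => Nat → P) (fun _ => P.nil)
    (fun p _ ih k => padd (place (Nat.mul 256 k) (pre 1024 (trim p) 16)) (ih (Nat.succ k))) S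

noncomputable def dgl16 (S : PL) : Bool :=
  PL.rec (motive := fun _ => Bool) true (fun p _ ih => band (dg (trim p) 16) ih) S

noncomputable def peq (p : P) : P → Bool :=
  P.rec (motive := fun _ => P → Bool) isNil
    (fun a b m q => P.rec (motive := fun _ => Bool) false
      (fun a' b' m' => band (Nat.beq a a') (band (Nat.beq b b') (Nat.beq m m')))
      (fun _ _ _ _ => false) q)
    (fun _ _ ic ir q => P.rec (motive := fun _ => Bool) false (fun _ _ _ => false)
      (fun c' r' _ _ => band (ic c') (ir r')) q) p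

noncomputable def eeq (e : EL) : EL → Bool :=
  EL.rec (motive := fun _ => EL → Bool)
    (fun f => EL.rec (motive := fun _ => Bool) true (fun _ _ _ _ => false) f)
    (fun k t _ ih f => EL.rec (motive := fun _ => Bool) false
      (fun k' t' f' _ => band (band (Nat.beq k k') (band (peq t.p t'.p) (Nat.beq t.r t'.r))) (ih f')) f) e

noncomputable def seq (S : SL) : SL → Bool :=
  SL.rec (motive := fun _ => SL → Bool)
    (fun T => SL.rec (motive := fun _ => Bool) true (fun _ _ _ => false) T)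
    (fun e _ ih T => SL.rec (motive := fun _ => Bool) false
      (fun f T' _ => band (eeq e f) (ih T')) T) S

/-! ## The list of global polynomials in `(τ, y, q)` -/

noncomputable def p1 : P := P.lf 1 0 0
noncomputable def pt : P := P.cons P.nil p1
noncomputable def py : P := P.cons (P.cons P.nil p1) P.nil
noncomputable def pq : P := P.cons (P.cons (P.cons P.nil p1) P.nil) P.nil
noncomputable def pe : P := P.cons p1 (P.lf 0 1 0)
noncomputable def ph : P := P.cons (P.cons p1 (P.lf 0 1 0)) P.nil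
noncomputable def ps : P := pmul pq pq
noncomputable def pu : P := pmul pe py
noncomputable def pL : PL := PL.cons py (PL.cons ps (PL.cons pu PL.nil))
noncomputable def gV (W : Nat → Nat → P) (f d : Nat) : P := trim (cmp (W f d) pL)
noncomputable def gD (W : Nat → Nat → P) (i f d : Nat) : P := trim (cmp (der i (W f d)) pL)
noncomputable def gB (W : Nat → Nat → P) (f d : Nat) : P :=
  trim (padd (pmul ph (gD W 0 f d)) (pmm 1 (pmul pu (gD W 2 f d))))
noncomputable def gA (W : Nat → Nat → P) (f d : Nat) : P :=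
  trim (pmul pt (pmul py (gB W f d)))
noncomputable def gC (W : Nat → Nat → P) (f d : Nat) : P :=
  trim (padd (pmul ph (pmul ph (gB W f d))) (padd (pmul pe (pmul ph (pmul ph (gD W 2 f d)))) (pmm 2 (pmul pe (pmul pe (pmul py (gD W 1 f d)))))))
noncomputable def gE (W : Nat → Nat → P) (f d : Nat) : P :=
  trim (pmn 2 (pmul pt (pmul ph (gD W 1 f d))))
noncomputable def gH (W : Nat → Nat → P) (f g d : Nat) : P :=
  trim (padd (pmul pe (gV W f d)) (pmul pt (gV W g d)))
noncomputable def gW (W : Nat → Nat → P) (f g d : Nat) : P :=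
  trim (padd (pmul pe (gA W f d)) (pmul pt (padd (gA W g d) (gV W g d))))
noncomputable def gC2 (W : Nat → Nat → P) (f g d : Nat) : P :=
  trim (padd (pmul pe (gC W f d)) (pmul pt (gC W g d)))
noncomputable def gE2 (W : Nat → Nat → P) (f g d : Nat) : P :=
  trim (padd (pmul pe (gE W f d)) (pmul pt (gE W g d)))

noncomputable def gL (W : Nat → Nat → P) : PL :=
  PL.cons (pmn 2097152 (padd (pmn 25 (pmul ph (pmul ph (padd p1 (pmm 1 ps))))) (pmm 1 (pmul py (pmul py (padd (pmn 25 (pmul pe pe)) (pmn 4 (pmul pt pt))))))))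
    (PL.cons (pmn 64 (gV W 1 0))
    (PL.cons (pmn 64 (gV W 1 1))
    (PL.cons (pmn 64 (gV W 1 2))
    (PL.cons (pmn 64 (gA W 1 0))
    (PL.cons (pmn 64 (gA W 1 1))
    (PL.cons (pmn 64 (gA W 1 2))
    (PL.cons (pmn 64 (gV W 0 0))
    (PL.cons (pmn 64 (gV W 0 1))
    (PL.cons (pmn 64 (gV W 0 2))
    (PL.cons (pmn 64 (gA W 0 0))
    (PL.cons (pmn 64 (gA W 0 1))
    (PL.cons (pmn 64 (gA W 0 2))
    (PL.cons (pmn 64 (padd (pmul pq (gC W 1 0)) (pmul pq (pmul ph (padd (gH W 2 5 0) (padd (gH W 4 7 0) (gW W 2 5 0)))))))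
    (PL.cons (pmn 64 (padd (pmul pq (gC W 1 1)) (pmul pq (pmul ph (padd (gH W 2 5 1) (padd (gH W 4 7 1) (gW W 2 5 1)))))))
    (PL.cons (pmn 64 (padd (pmul pq (gC W 1 2)) (pmul pq (pmul ph (padd (gH W 2 5 2) (padd (gH W 4 7 2) (gW W 2 5 2)))))))
    (PL.cons (pmn 64 (padd (pmul pq (gE W 1 0)) (pmul pq (pmul ph (gW W 3 6 0)))))
    (PL.cons (pmn 64 (padd (pmul pq (gE W 1 1)) (pmul pq (pmul ph (gW W 3 6 1)))))
    (PL.cons (pmn 64 (padd (pmul pq (gE W 1 2)) (pmul pq (pmul ph (gW W 3 6 2)))))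
    (PL.cons (pmn 64 (pmul pq (pmul ph (padd (gW W 4 7 0) (pmm 1 (gH W 4 7 0))))))
    (PL.cons (pmn 64 (pmul pq (pmul ph (padd (gW W 4 7 1) (pmm 1 (gH W 4 7 1))))))
    (PL.cons (pmn 64 (pmul pq (pmul ph (padd (gW W 4 7 2) (pmm 1 (gH W 4 7 2))))))
    (PL.cons (pmn 64 (pmn 1 (pmul pq (pmul ph (gH W 2 5 1)))))
    (PL.cons (pmn 64 (pmn 2 (pmul pq (pmul ph (gH W 2 5 2)))))
    (PL.cons (pmn 64 (pmn 1 (pmul pq (pmul ph (gH W 3 6 1)))))
    (PL.cons (pmn 64 (pmn 2 (pmul pq (pmul ph (gH W 3 6 2)))))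
    (PL.cons (pmn 64 (pmn 1 (pmul pq (pmul ph (gH W 4 7 1)))))
    (PL.cons (pmn 64 (pmn 2 (pmul pq (pmul ph (gH W 4 7 2)))))
    (PL.cons (pmn 64 (pmul pq (gC W 0 0)))
    (PL.cons (pmn 64 (pmul pq (gC W 0 1)))
    (PL.cons (pmn 64 (pmul pq (gC W 0 2)))
    (PL.cons (pmn 64 (pmul pq (gE W 0 0)))
    (PL.cons (pmn 64 (pmul pq (gE W 0 1)))
    (PL.cons (pmn 64 (pmul pq (gE W 0 2)))
    (PL.cons (pmn 64 (padd (pmul ps (pmul ph (gC2 W 2 5 0))) (padd (pmul pe (pmul pe (pmul ph (pmul ph (padd (pmn 5 (gV W 1 0)) (pmm 4 (gV W 0 0))))))) (padd (pmm 1 (pmul pe (pmul pe (pmul py (pmul ph (padd (pmn 5 (gH W 2 5 0)) (gH W 4 7 0))))))) (pmul pt (pmul ph (pmul ph (gH W 3 6 0))))))))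
    (PL.cons (pmn 64 (padd (pmul ps (pmul ph (gC2 W 2 5 1))) (padd (pmul pe (pmul pe (pmul ph (pmul ph (padd (pmn 5 (gV W 1 1)) (pmm 4 (gV W 0 1))))))) (padd (pmm 1 (pmul pe (pmul pe (pmul py (pmul ph (padd (pmn 5 (gH W 2 5 1)) (gH W 4 7 1))))))) (padd (pmul pt (pmul ph (pmul ph (gH W 3 6 1)))) (pmul pt (pmul ph (pmul ph (gH W 4 7 0)))))))))
    (PL.cons (pmn 64 (padd (pmul ps (pmul ph (gC2 W 2 5 2))) (padd (pmul pe (pmul pe (pmul ph (pmul ph (padd (pmn 5 (gV W 1 2)) (pmm 4 (gV W 0 2))))))) (padd (pmm 1 (pmul pe (pmul pe (pmul py (pmul ph (padd (pmn 5 (gH W 2 5 2)) (gH W 4 7 2))))))) (padd (pmul pt (pmul ph (pmul ph (gH W 3 6 2)))) (pmul pt (pmul ph (pmul ph (gH W 4 7 1)))))))))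
    (PL.cons (pmn 64 (pmul ps (pmul ph (padd (gE2 W 2 5 0) (gC2 W 3 6 0)))))
    (PL.cons (pmn 64 (pmul ps (pmul ph (padd (gE2 W 2 5 1) (gC2 W 3 6 1)))))
    (PL.cons (pmn 64 (pmul ps (pmul ph (padd (gE2 W 2 5 2) (gC2 W 3 6 2)))))
    (PL.cons (pmn 64 (pmul ps (pmul ph (padd (gE2 W 3 6 0) (gC2 W 4 7 0)))))
    (PL.cons (pmn 64 (pmul ps (pmul ph (padd (gE2 W 3 6 1) (gC2 W 4 7 1)))))
    (PL.cons (pmn 64 (pmul ps (pmul ph (padd (gE2 W 3 6 2) (gC2 W 4 7 2)))))
    (PL.cons (pmn 64 (pmul ps (pmul ph (gE2 W 4 7 0))))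
    (PL.cons (pmn 64 (pmul ps (pmul ph (gE2 W 4 7 1))))
    (PL.cons (pmn 64 (pmul ps (pmul ph (gE2 W 4 7 2))))
    (PL.cons (pmn 64 (pmul pt (pmul ph (pmul ph (gH W 4 7 2)))))
    (PL.cons (pmn 16 (padd (pmul ph (padd (pmn 5 (gV W 0 0)) (pmm 4 (gV W 1 0)))) (pmn 4 (pmul py (gH W 2 5 0)))))
    (PL.cons (pmn 16 (padd (pmul ph (padd (pmn 5 (gV W 0 1)) (pmm 4 (gV W 1 1)))) (pmn 4 (pmul py (gH W 2 5 1)))))
    (PL.cons (pmn 16 (padd (pmul ph (padd (pmn 5 (gV W 0 2)) (pmm 4 (gV W 1 2)))) (pmn 4 (pmul py (gH W 2 5 2)))))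
    PL.nil)))))))))))))))))))))))))))))))))))))))))))))))))

noncomputable def bV (W : Nat → Nat → P) (f d : Nat) : P :=
  cmp (W f d) (PL.cons P.nil (PL.cons p1 PL.nil))

noncomputable def bL1 (W : Nat → Nat → P) : PL :=
  PL.cons (P.lf 67108864 0 0)
    (PL.cons P.nil
    (PL.cons P.nil
    (PL.cons P.nil
    (PL.cons P.nil
    (PL.cons P.nil
    (PL.cons P.nil
    (PL.cons P.nil
    (PL.cons P.nil
    (PL.cons P.nil
    (PL.cons P.nil
    (PL.cons P.nil
    (PL.cons P.nil
    (PL.cons P.nil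
    (PL.cons P.nil
    (PL.cons P.nil
    (PL.cons P.nil
    (PL.cons P.nil
    (PL.cons P.nil
    (PL.cons P.nil
    (PL.cons P.nil
    (PL.cons P.nil
    (PL.cons P.nil
    (PL.cons P.nil
    (PL.cons P.nil
    (PL.cons P.nil
    (PL.cons P.nil
    (PL.cons P.nil
    (PL.cons P.nil
    (PL.cons P.nil
    (PL.cons P.nil
    (PL.cons P.nil
    (PL.cons P.nil
    (PL.cons P.nil
    (PL.cons (pmn 32 (bV W 2 0))
    (PL.cons (pmn 32 (bV W 2 1))
    (PL.cons (pmn 32 (bV W 2 2))
    (PL.cons (pmn 32 (bV W 3 0))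
    (PL.cons (pmn 32 (bV W 3 1))
    (PL.cons (pmn 32 (bV W 3 2))
    (PL.cons (pmn 32 (bV W 4 0))
    (PL.cons (pmn 32 (bV W 4 1))
    (PL.cons (pmn 32 (bV W 4 2))
    (PL.cons P.nil
    (PL.cons P.nil
    (PL.cons P.nil
    (PL.cons P.nil
    (PL.cons P.nil
    (PL.cons P.nil
    (PL.cons P.nil
    PL.nil)))))))))))))))))))))))))))))))))))))))))))))))))

noncomputable def bL2 (W : Nat → Nat → P) : PL :=
  PL.cons (P.lf 67108864 0 0)
    (PL.cons P.nil
    (PL.cons P.nil
    (PL.cons P.nil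
    (PL.cons P.nil
    (PL.cons P.nil
    (PL.cons P.nil
    (PL.cons P.nil
    (PL.cons P.nil
    (PL.cons P.nil
    (PL.cons P.nil
    (PL.cons P.nil
    (PL.cons P.nil
    (PL.cons P.nil
    (PL.cons P.nil
    (PL.cons P.nil
    (PL.cons P.nil
    (PL.cons P.nil
    (PL.cons P.nil
    (PL.cons P.nil
    (PL.cons P.nil
    (PL.cons P.nil
    (PL.cons P.nil
    (PL.cons P.nil
    (PL.cons P.nil
    (PL.cons P.nil
    (PL.cons P.nil
    (PL.cons P.nil
    (PL.cons P.nil
    (PL.cons P.nil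
    (PL.cons P.nil
    (PL.cons P.nil
    (PL.cons P.nil
    (PL.cons P.nil
    (PL.cons (pmn 32 (bV W 5 0))
    (PL.cons (pmn 32 (padd (bV W 5 1) (pmm 1 (bV W 1 0))))
    (PL.cons (pmn 32 (padd (bV W 5 2) (pmm 1 (bV W 1 1))))
    (PL.cons (pmn 32 (padd (pmn 2 (bV W 1 0)) (padd (bV W 6 0) (pmm 1 (bV W 0 0)))))
    (PL.cons (pmn 32 (padd (pmn 2 (bV W 1 1)) (padd (bV W 6 1) (pmm 1 (bV W 0 1)))))
    (PL.cons (pmn 32 (padd (pmn 2 (bV W 1 2)) (padd (bV W 6 2) (pmm 1 (bV W 0 2)))))
    (PL.cons (pmn 32 (bV W 7 0))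
    (PL.cons (pmn 32 (bV W 7 1))
    (PL.cons (pmn 32 (bV W 7 2))
    (PL.cons P.nil
    (PL.cons P.nil
    (PL.cons P.nil
    (PL.cons (pmm 32 (bV W 1 2))
    (PL.cons P.nil
    (PL.cons P.nil
    (PL.cons P.nil
    PL.nil)))))))))))))))))))))))))))))))))))))))))))))))))

end Vale.Agent.P098.Ck
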