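import Vale.Agent.P098.CkDefs

/-!
# P098: gluing of the runs of the checker
-/

namespace Vale.Agent.P098.Ck

/-- The five-dimensional box is covered by accepted runs of the checker. -/
inductive Ok (G : P) (Z : Nat → EL) :
    Nat → Nat → Nat → Nat → Nat → Nat → Nat → Nat → Nat → Nat → Prop where
  | lf {S : SL} {t : Tr} {l0 h0 l1 h1 l2 h2 l3 h3 l4 h4 : Nat}
      (hS : band (seq (shp 5 l3 h3 l4 h4) S) (sok S) = true)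
      (h : go 16 G Z S t l0 h0 l1 h1 l2 h2 = true) : Ok G Z l0 h0 l1 h1 l2 h2 l3 h3 l4 h4
  | out {l0 h0 l1 h1 l2 h2 l3 h3 l4 h4 : Nat} (h : outside l0 h0 l1 l2 = true) :
      Ok G Z l0 h0 l1 h1 l2 h2 l3 h3 l4 h4
  | s0 {l0 h0 l1 h1 l2 h2 l3 h3 l4 h4 : Nat} (m : Nat)
      (a : Ok G Z l0 m l1 h1 l2 h2 l3 h3 l4 h4)
      (b : Ok G Z m h0 l1 h1 l2 h2 l3 h3 l4 h4) : Ok G Z l0 h0 l1 h1 l2 h2 l3 h3 l4 h4
  | s1 {l0 h0 l1 h1 l2 h2 l3 h3 l4 h4 : Nat} (m : Nat)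
      (a : Ok G Z l0 h0 l1 m l2 h2 l3 h3 l4 h4)
      (b : Ok G Z l0 h0 m h1 l2 h2 l3 h3 l4 h4) : Ok G Z l0 h0 l1 h1 l2 h2 l3 h3 l4 h4
  | s2 {l0 h0 l1 h1 l2 h2 l3 h3 l4 h4 : Nat} (m : Nat)
      (a : Ok G Z l0 h0 l1 h1 l2 m l3 h3 l4 h4)
      (b : Ok G Z l0 h0 l1 h1 m h2 l3 h3 l4 h4) : Ok G Z l0 h0 l1 h1 l2 h2 l3 h3 l4 h4
  | s3 {l0 h0 l1 h1 l2 h2 l3 h3 l4 h4 : Nat} (m : Nat)
      (a : Ok G Z l0 h0 l1 h1 l2 h2 l3 m l4 h4)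
      (b : Ok G Z l0 h0 l1 h1 l2 h2 m h3 l4 h4) : Ok G Z l0 h0 l1 h1 l2 h2 l3 h3 l4 h4
  | s4 {l0 h0 l1 h1 l2 h2 l3 h3 l4 h4 : Nat} (m : Nat)
      (a : Ok G Z l0 h0 l1 h1 l2 h2 l3 h3 l4 m)
      (b : Ok G Z l0 h0 l1 h1 l2 h2 l3 h3 m h4) : Ok G Z l0 h0 l1 h1 l2 h2 l3 h3 l4 h4

theorem bl {a b : Bool} (h : band a b = true) : a = true := by
  cases a
  · exact h
  · rfl

theorem br {a b : Bool} (h : band a b = true) : b = true := by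
  cases a
  · exact Bool.noConfusion h
  · exact h

end Vale.Agent.P098.Ck
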