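import Vale.Agent.P098.CertDefs
import Vale.Agent.P098.CkSem

/-!
# P098: the family of functions given by integer tables
-/

open Finset

noncomputable section
namespace Vale.Agent.P098.Ck

def gg (t : ℝ) : ℝ := t / (1 + |t| - t)

def pv (v : Fin 4 → ℝ) : Pt :=
  p3 (gg (v 0 + v 2) / (1 + gg (v 0 + v 2))) (v 1) (v 2 / (1 + gg (v 0 + v 2)))

def ff (W : ℕ → ℕ → P) (f : ℕ) : F4 := fun v =>
  (ev (W f 0) (pv v) + ev (W f 1) (pv v) * v 3 + ev (W f 2) (pv v) * v 3 ^ 2) / 2 ^ 20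

def fd (W : ℕ → ℕ → P) (i f : ℕ) : F4 := fun v =>
  (ev (der i (W f 0)) (pv v) + ev (der i (W f 1)) (pv v) * v 3 +
    ev (der i (W f 2)) (pv v) * v 3 ^ 2) / 2 ^ 20

def FF (W : ℕ → ℕ → P) : Fam :=
  ⟨ff W 0, ff W 1, ff W 2, ff W 3, ff W 4, ff W 5, ff W 6, ff W 7⟩

def S_smooth : Prop := ∀ (W : ℕ → ℕ → P) (f : ℕ), ContDiff ℝ 1 (ff W f)

def S_d4 : Prop := ∀ (W : ℕ → ℕ → P) (f : ℕ) (v : Fin 4 → ℝ), 0 ≤ v 0 + v 2 →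
  pv v = p3 ((v 0 + v 2) / (1 + (v 0 + v 2))) (v 1) (v 2 / (1 + (v 0 + v 2))) ∧
  d4 (ff W f) 0 v = (fd W 0 f v - v 2 * fd W 2 f v) / (1 + (v 0 + v 2)) ^ 2 ∧
  d4 (ff W f) 1 v = fd W 1 f v ∧
  d4 (ff W f) 2 v = (fd W 0 f v - v 2 * fd W 2 f v) / (1 + (v 0 + v 2)) ^ 2 +
    fd W 2 f v / (1 + (v 0 + v 2)) ∧
  d4 (ff W f) 3 v = (ev (W f 1) (pv v) + 2 * ev (W f 2) (pv v) * v 3) / 2 ^ 20

/-- The rational parametrisation of the shapes. -/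
def S_kap : Prop := ∀ x β c : ℝ, Shape x β c →
  |x / (4 * β + 2)| ≤ 232 / 512 ∧ |c| ≤ 296 / 512 ∧ (x ≤ 0 → x / (4 * β + 2) ≤ 0) ∧
  rX (x / (4 * β + 2)) c = x ∧ rB (x / (4 * β + 2)) c = β ∧ rGa (x / (4 * β + 2)) c = sγ c ∧
  rE2 (x / (4 * β + 2)) c = 2 * se c ∧ rT1 (x / (4 * β + 2)) c = sτ x β c

/-- The matrix of the checker is the matrix of the reduced form. -/
def S_ident : Prop := ∀ (W : ℕ → ℕ → P) (x β c w u q : ℝ), Shape x β c → 0 < w → 0 ≤ u →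
  ∀ t y : ℝ, t = w / (1 + w) → y = (u * w + u) / (1 + (u * w + u)) → ∀ v : ℕ → ℝ,
  Qf (fun k => ∑ j ∈ range 49,
      GR (tV W t y q) (tD W t y q) t y q (j + 1) * Sr (x / (4 * β + 2)) c j k) v =
    2 ^ 26 * (2 * form (FF W) x β c w u q (3 / 8 * v 0) (v 1 / 2) (v 2 / 2) (v 3)
        ((1 - t) * (1 - y) * v 4) +
      (1 - y) * (5 / 4 * (FF W).f0 ![u * w, q ^ 2, u, sτ x β c] -
        (FF W).f1 ![u * w, q ^ 2, u, sτ x β c] +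
        u * ((FF W).g0 ![u * w, q ^ 2, u, sτ x β c] + w * (FF W).h0 ![u * w, q ^ 2, u, sτ x β c])) *
        v 5 ^ 2)

def S_int : Prop := ∀ W : ℕ → ℕ → P, Good5 (Gint W) AI 0 512 0 512 0 512 24 488 216 808 →
  RedInt (FF W) ∧ RedE (FF W)

def S_bd : Prop := ∀ W : ℕ → ℕ → P, Good5 (Gb1 W) AB 0 0 0 0 0 0 24 256 216 808 →
  Good5 (Gb2 W) AB 0 0 0 0 0 0 24 256 216 808 → RedBd (FF W)

variable {G : Pt → ℕ → ℝ} {A : (ℕ → ℝ) → Prop} {l0 h0 l1 h1 l2 h2 l3 h3 l4 h4 m : ℕ}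

theorem In.split {l h : ℕ} {t : ℝ} (m : ℕ) (ht : In l h t) : In l m t ∨ In m h t := by
  rcases le_total t (m : ℝ) with h1 | h1
  · exact Or.inl ⟨ht.1, h1⟩
  · exact Or.inr ⟨h1, ht.2⟩

theorem sp0 (a : Good5 G A l0 m l1 h1 l2 h2 l3 h3 l4 h4) (b : Good5 G A m h0 l1 h1 l2 h2 l3 h3 l4 h4) :
    Good5 G A l0 h0 l1 h1 l2 h2 l3 h3 l4 h4 := by
  intro t3 t4 i3 i4 t0 t1 t2 i0 i1 i2 hd
  rcases i0.split m with h | h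
  · exact a t3 t4 i3 i4 t0 t1 t2 h i1 i2 hd
  · exact b t3 t4 i3 i4 t0 t1 t2 h i1 i2 hd

theorem sp1 (a : Good5 G A l0 h0 l1 m l2 h2 l3 h3 l4 h4) (b : Good5 G A l0 h0 m h1 l2 h2 l3 h3 l4 h4) :
    Good5 G A l0 h0 l1 h1 l2 h2 l3 h3 l4 h4 := by
  intro t3 t4 i3 i4 t0 t1 t2 i0 i1 i2 hd
  rcases i1.split m with h | h
  · exact a t3 t4 i3 i4 t0 t1 t2 i0 h i2 hd
  · exact b t3 t4 i3 i4 t0 t1 t2 i0 h i2 hd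

theorem sp2 (a : Good5 G A l0 h0 l1 h1 l2 m l3 h3 l4 h4) (b : Good5 G A l0 h0 l1 h1 m h2 l3 h3 l4 h4) :
    Good5 G A l0 h0 l1 h1 l2 h2 l3 h3 l4 h4 := by
  intro t3 t4 i3 i4 t0 t1 t2 i0 i1 i2 hd
  rcases i2.split m with h | h
  · exact a t3 t4 i3 i4 t0 t1 t2 i0 i1 h hd
  · exact b t3 t4 i3 i4 t0 t1 t2 i0 i1 h hd

theorem sp3 (a : Good5 G A l0 h0 l1 h1 l2 h2 l3 m l4 h4) (b : Good5 G A l0 h0 l1 h1 l2 h2 m h3 l4 h4) :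
    Good5 G A l0 h0 l1 h1 l2 h2 l3 h3 l4 h4 := by
  intro t3 t4 i3 i4 t0 t1 t2 i0 i1 i2 hd
  rcases i3.split m with h | h
  · exact a t3 t4 h i4 t0 t1 t2 i0 i1 i2 hd
  · exact b t3 t4 h i4 t0 t1 t2 i0 i1 i2 hd

theorem sp4 (a : Good5 G A l0 h0 l1 h1 l2 h2 l3 h3 l4 m) (b : Good5 G A l0 h0 l1 h1 l2 h2 l3 h3 m h4) :
    Good5 G A l0 h0 l1 h1 l2 h2 l3 h3 l4 h4 := by
  intro t3 t4 i3 i4 t0 t1 t2 i0 i1 i2 hd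
  rcases i4.split m with h | h
  · exact a t3 t4 i3 h t0 t1 t2 i0 i1 i2 hd
  · exact b t3 t4 i3 h t0 t1 t2 i0 i1 i2 hd

end Vale.Agent.P098.Ck
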