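import Vale.Agent.P098.CkGd

namespace Vale.Agent.P098.Ck

noncomputable def W00 : P :=
  (P.cons (P.cons (P.cons (P.lf 2089119 0 0) (P.cons (P.lf 1117595 0 0) (P.lf 6549309 0 0))) (P.cons (P.cons (P.lf 505615 0 0) (P.lf 0 4857219 0)) (P.cons (P.lf 0 444986 0) (P.lf 334991 0 0)))) (P.cons (P.cons (P.cons (P.lf 0 2299055 0) (P.cons (P.lf 0 29220426 0) (P.lf 59377194 0 0))) (P.cons (P.cons (P.lf 6063103 0 0) (P.lf 0 1901752 0)) (P.cons (P.lf 0 12264419 0) (P.lf 10167403 0 0)))) (P.cons (P.cons (P.cons (P.lf 51153432 0 0) (P.cons (P.lf 0 40005835 0) (P.lf 0 246608335 0))) (P.cons (P.cons (P.lf 0 30797453 0) (P.lf 83086464 0 0)) (P.cons (P.lf 17973708 0 0) (P.lf 0 20454287 0)))) (P.cons (P.cons (P.cons (P.lf 0 137473532 0) (P.cons (P.lf 237668754 0 0) (P.lf 292480750 0 0))) (P.cons (P.cons (P.lf 57084979 0 0) (P.lf 0 110047831 0)) (P.lf 13506887 0 0))) (P.cons (P.cons (P.cons (P.lf 100412366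 0 0) (P.lf 0 223093334 0)) (P.lf 0 43443346 0)) P.nil)))))

noncomputable def W01 : P :=
  (P.cons (P.cons (P.cons (P.lf 0 629700 0) (P.cons (P.lf 4003514 0 0) (P.lf 1769946 0 0))) (P.cons (P.cons (P.lf 1121108 0 0) (P.lf 0 6876214 0)) (P.cons (P.lf 0 3197640 0) (P.lf 1848804 0 0)))) (P.cons (P.cons (P.cons (P.lf 10780139 0 0) (P.cons (P.lf 5595819 0 0) (P.lf 0 56636033 0))) (P.cons (P.cons (P.lf 0 24386856 0) (P.lf 18936420 0 0)) (P.cons (P.lf 20250054 0 0) (P.lf 0 3750671 0)))) (P.cons (P.cons (P.cons (P.lf 0 28460543 0) (P.cons (P.lf 0 45971719 0) (P.lf 120110968 0 0))) (P.cons (P.cons (P.lf 55993669 0 0) (P.lf 0 21730400 0)) (P.lf 0 28396695 0))) (P.cons (P.cons (P.cons (P.lf 28834561 0 0) (P.lf 15488034 0 0)) (P.lf 0 18393447 0)) (P.lf 0 11427534 0)))))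

noncomputable def W02 : P :=
  (P.cons (P.cons (P.cons (P.lf 36496 0 0) (P.cons (P.lf 7806767 0 0) (P.lf 0 18651064 0))) (P.cons (P.cons (P.lf 0 2749833 0) (P.lf 1683748 0 0)) (P.cons (P.lf 7075763 0 0) (P.lf 0 5189223 0)))) (P.cons (P.cons (P.cons (P.lf 28377 0 0) (P.cons (P.lf 18992126 0 0) (P.lf 11416495 0 0))) (P.cons (P.cons (P.lf 0 6957161 0) (P.lf 0 5802948 0)) (P.lf 321546 0 0))) (P.cons (P.cons (P.cons (P.lf 0 17211680 0) (P.lf 0 27628982 0)) (P.lf 10773965 0 0)) (P.lf 23125310 0 0))))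

noncomputable def W10 : P :=
  (P.cons (P.cons (P.cons (P.lf 1892643 0 0) (P.cons (P.lf 2402170 0 0) (P.lf 6844505 0 0))) (P.cons (P.cons (P.lf 0 3713359 0) (P.lf 3215586 0 0)) (P.cons (P.lf 7253868 0 0) (P.lf 0 3738859 0)))) (P.cons (P.cons (P.cons (P.lf 406597 0 0) (P.cons (P.lf 12105184 0 0) (P.lf 33458429 0 0))) (P.cons (P.cons (P.lf 5490669 0 0) (P.lf 0 45890910 0)) (P.cons (P.lf 0 16814048 0) (P.lf 7878277 0 0)))) (P.cons (P.cons (P.cons (P.lf 0 24821589 0) (P.cons (P.lf 0 20076161 0) (P.lf 0 123997228 0))) (P.cons (P.cons (P.lf 35943608 0 0) (P.lf 87010697 0 0)) (P.cons (P.lf 7904193 0 0) (P.lf 0 5378061 0)))) (P.cons (P.cons (P.cons (P.lf 142335965 0 0) (P.cons (P.lf 0 135192744 0) (P.lf 21140373 0 0))) (P.cons (P.cons (P.lf 0 141894918 0) (P.lf 0 23005121 0)) (P.lf 0 4472562 0))) (P.cons (P.cons (P.cons (P.lf 0 114546876 0) (P.lf 163108780 0 0)) (P.lf 105767237 0 0)) P.nil)))))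

noncomputable def W11 : P :=
  (P.cons (P.cons (P.cons (P.lf 0 414289 0) (P.cons (P.lf 5069774 0 0) (P.lf 248758 0 0))) (P.cons (P.cons (P.lf 81452 0 0) (P.lf 0 8917140 0)) (P.cons (P.lf 388782 0 0) (P.lf 0 954414 0)))) (P.cons (P.cons (P.cons (P.lf 6167475 0 0) (P.cons (P.lf 9716050 0 0) (P.lf 0 44996346 0))) (P.cons (P.cons (P.lf 0 21079257 0) (P.lf 4821029 0 0)) (P.cons (P.lf 17555387 0 0) (P.lf 439506 0 0)))) (P.cons (P.cons (P.cons (P.lf 16298072 0 0) (P.cons (P.lf 0 32855853 0) (P.lf 0 6593398 0))) (P.cons (P.cons (P.lf 11571565 0 0) (P.lf 41051272 0 0)) (P.lf 0 24484105 0))) (P.cons (P.cons (P.cons (P.lf 0 34342659 0) (P.lf 23141685 0 0)) (P.lf 0 156683 0)) (P.lf 31389782 0 0)))))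

noncomputable def W12 : P :=
  (P.cons (P.cons (P.cons (P.lf 0 210125 0) (P.cons (P.lf 1064872 0 0) (P.lf 0 4533534 0))) (P.cons (P.cons (P.lf 2595316 0 0) (P.lf 0 3430734 0)) (P.cons (P.lf 0 2088551 0) (P.lf 0 256212 0)))) (P.cons (P.cons (P.cons (P.lf 11908197 0 0) (P.cons (P.lf 0 33616437 0) (P.lf 0 9622307 0))) (P.cons (P.cons (P.lf 0 26702926 0) (P.lf 25684978 0 0)) (P.lf 15011998 0 0))) (P.cons (P.cons (P.cons (P.lf 0 10579173 0) (P.lf 48410762 0 0)) (P.lf 11922025 0 0)) (P.lf 0 146866 0))))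

noncomputable def W20 : P :=
  (P.cons (P.cons (P.cons (P.lf 0 7845851 0) (P.cons (P.lf 30168102 0 0) (P.lf 0 290885 0))) (P.cons (P.cons (P.lf 0 2778085 0) (P.lf 0 28425429 0)) (P.cons (P.lf 27856377 0 0) (P.lf 0 17216319 0)))) (P.cons (P.cons (P.cons (P.lf 15768285 0 0) (P.cons (P.lf 0 2289865 0) (P.lf 0 17167258 0))) (P.cons (P.cons (P.lf 0 21665888 0) (P.lf 0 13982283 0)) (P.cons (P.lf 0 39909442 0) (P.lf 47665193 0 0)))) (P.cons (P.cons (P.cons (P.lf 0 218557 0) (P.cons (P.lf 84014395 0 0) (P.lf 0 474787096 0))) (P.cons (P.cons (P.lf 128628056 0 0) (P.lf 148066148 0 0)) (P.cons (P.lf 0 99516238 0) (P.lf 0 32057119 0)))) (P.cons (P.cons (P.cons (P.lf 0 5836177 0) (P.cons (P.lf 0 173349438 0) (P.lf 682571311 0 0))) (P.cons (P.cons (P.lf 0 165747853 0) (P.lf 0 104764040 0)) (P.lf 129612253 0 0))) (P.cons (P.cons (P.cons (P.lf 2254742 0 0) (P.lf 0 47543435 0)) (P.lf 52457999 0 0))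 P.nil)))))

noncomputable def W21 : P :=
  (P.cons (P.cons (P.cons (P.lf 467834 0 0) (P.cons (P.lf 7478700 0 0) (P.lf 5042957 0 0))) (P.cons (P.cons (P.lf 0 12802713 0) (P.lf 0 11186365 0)) (P.cons (P.lf 27525503 0 0) (P.lf 0 15239591 0)))) (P.cons (P.cons (P.cons (P.lf 14869126 0 0) (P.cons (P.lf 25904693 0 0) (P.lf 0 131343916 0))) (P.cons (P.cons (P.lf 0 3555329 0) (P.lf 37290568 0 0)) (P.cons (P.lf 0 29777843 0) (P.lf 18788039 0 0)))) (P.cons (P.cons (P.cons (P.lf 0 37951816 0) (P.cons (P.lf 0 72803103 0) (P.lf 184367143 0 0))) (P.cons (P.cons (P.lf 11447216 0 0) (P.lf 0 2475432 0)) (P.lf 0 11433435 0))) (P.cons (P.cons (P.cons (P.lf 70378953 0 0) (P.lf 0 11330227 0)) (P.lf 13340188 0 0)) (P.lf 0 52581963 0)))))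

noncomputable def W22 : P :=
  (P.cons (P.cons (P.cons (P.lf 3471218 0 0) (P.cons (P.lf 0 7074115 0) (P.lf 0 1739705 0))) (P.cons (P.cons (P.lf 0 15749198 0) (P.lf 9976414 0 0)) (P.cons (P.lf 18775168 0 0) (P.lf 0 6447301 0)))) (P.cons (P.cons (P.cons (P.lf 0 2508620 0) (P.cons (P.lf 0 37031208 0) (P.lf 71380208 0 0))) (P.cons (P.cons (P.lf 8225872 0 0) (P.lf 14396287 0 0)) (P.lf 0 9218613 0))) (P.cons (P.cons (P.cons (P.lf 9058441 0 0) (P.lf 0 2576487 0)) (P.lf 220524 0 0)) (P.lf 0 6002704 0))))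

noncomputable def W30 : P :=
  (P.cons (P.cons (P.cons (P.lf 0 3640652 0) (P.cons (P.lf 0 25840968 0) (P.lf 23734973 0 0))) (P.cons (P.cons (P.lf 3375695 0 0) (P.lf 19403032 0 0)) (P.cons (P.lf 0 15047787 0) (P.lf 14810404 0 0)))) (P.cons (P.cons (P.cons (P.lf 10805384 0 0) (P.cons (P.lf 0 65731127 0) (P.lf 158423797 0 0))) (P.cons (P.cons (P.lf 0 45862111 0) (P.lf 24499535 0 0)) (P.cons (P.lf 63795564 0 0) (P.lf 0 20558546 0)))) (P.cons (P.cons (P.cons (P.lf 0 114444526 0) (P.cons (P.lf 420103640 0 0) (P.lf 0 390045409 0))) (P.cons (P.cons (P.lf 295022271 0 0) (P.lf 0 257134120 0)) (P.cons (P.lf 0 180861146 0) (P.lf 0 5010339 0)))) (P.cons (P.cons (P.cons (P.lf 201294526 0 0) (P.cons (P.lf 0 350215377 0) (P.lf 240115984 0 0))) (P.cons (P.cons (P.lf 0 338932457 0) (P.lf 183707751 0 0)) (P.lf 180710989 0 0))) (P.cons (P.cons (P.cons (P.lf 0 96074705 0) (P.lf 66809296 0 0)) (P.lf 55406721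 0 0)) P.nil)))))

noncomputable def W31 : P :=
  (P.cons (P.cons (P.cons (P.lf 0 1365116 0) (P.cons (P.lf 0 13937783 0) (P.lf 12469694 0 0))) (P.cons (P.cons (P.lf 3249099 0 0) (P.lf 9769382 0 0)) (P.cons (P.lf 0 7994412 0) (P.lf 4836298 0 0)))) (P.cons (P.cons (P.cons (P.lf 0 16220038 0) (P.cons (P.lf 58193565 0 0) (P.lf 0 56399676 0))) (P.cons (P.cons (P.lf 30182938 0 0) (P.lf 0 29887634 0)) (P.cons (P.lf 0 5539447 0) (P.lf 0 8096712 0)))) (P.cons (P.cons (P.cons (P.lf 5619811 0 0) (P.cons (P.lf 0 11153844 0) (P.lf 101850338 0 0))) (P.cons (P.cons (P.lf 0 11349481 0) (P.lf 0 49722586 0)) (P.lf 26519440 0 0))) (P.cons (P.cons (P.cons (P.lf 19813735 0 0) (P.lf 0 1781158 0)) (P.lf 0 26203243 0)) (P.lf 0 8939343 0)))))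

noncomputable def W32 : P :=
  (P.cons (P.cons (P.cons (P.lf 2892862 0 0) (P.cons (P.lf 9788998 0 0) (P.lf 0 39424070 0))) (P.cons (P.cons (P.lf 4359868 0 0) (P.lf 3957136 0 0)) (P.cons (P.lf 0 2524361 0) (P.lf 0 3320210 0)))) (P.cons (P.cons (P.cons (P.lf 0 3296469 0) (P.cons (P.lf 12110829 0 0) (P.lf 16936411 0 0))) (P.cons (P.cons (P.lf 0 25710925 0) (P.lf 0 17159185 0)) (P.lf 23209674 0 0))) (P.cons (P.cons (P.cons (P.lf 0 3530321 0) (P.lf 0 12368803 0)) (P.lf 6030981 0 0)) (P.lf 5800406 0 0))))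

noncomputable def W40 : P :=
  (P.cons (P.cons (P.cons (P.lf 0 442374 0) (P.cons (P.lf 0 1931041 0) (P.lf 207501 0 0))) (P.cons (P.cons (P.lf 0 3546836 0) (P.lf 11472274 0 0)) (P.cons (P.lf 6501073 0 0) (P.lf 0 3219148 0)))) (P.cons (P.cons (P.cons (P.lf 10127048 0 0) (P.cons (P.lf 0 87493183 0) (P.lf 156107000 0 0))) (P.cons (P.cons (P.lf 29694370 0 0) (P.lf 8511051 0 0)) (P.cons (P.lf 0 70903680 0) (P.lf 29211475 0 0)))) (P.cons (P.cons (P.cons (P.lf 0 45328455 0) (P.cons (P.lf 292059229 0 0) (P.lf 0 424631301 0))) (P.cons (P.cons (P.lf 0 82816054 0) (P.lf 0 94753314 0)) (P.cons (P.lf 181151285 0 0) (P.lf 0 39532028 0)))) (P.cons (P.cons (P.cons (P.lf 90981639 0 0) (P.cons (P.lf 0 231321617 0) (P.lf 317683797 0 0))) (P.cons (P.cons (P.lf 19243527 0 0) (P.lf 87291776 0 0)) (P.lf 0 122113496 0))) (P.cons (P.cons (P.cons (P.lf 0 58634750 0) (P.lf 0 4484 0)) (P.lf 57476082 0 0)) P.nil)))))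

noncomputable def W41 : P :=
  (P.cons (P.cons (P.cons (P.lf 1026784 0 0) (P.cons (P.lf 0 9223511 0) (P.lf 5964336 0 0))) (P.cons (P.cons (P.lf 3183346 0 0) (P.lf 9091029 0 0)) (P.cons (P.lf 0 16586358 0) (P.lf 10247508 0 0)))) (P.cons (P.cons (P.cons (P.lf 0 4592385 0) (P.cons (P.lf 52589744 0 0) (P.lf 0 92975523 0))) (P.cons (P.cons (P.lf 4728732 0 0) (P.lf 0 13326995 0)) (P.cons (P.lf 7960719 0 0) (P.lf 0 11990496 0)))) (P.cons (P.cons (P.cons (P.lf 16076719 0 0) (P.cons (P.lf 0 43669989 0) (P.lf 86534152 0 0))) (P.cons (P.cons (P.lf 0 21207835 0) (P.lf 0 2694881 0)) (P.lf 21740288 0 0))) (P.cons (P.cons (P.cons (P.lf 0 982401 0) (P.lf 2215603 0 0)) (P.lf 0 1584192 0)) (P.lf 0 7460069 0)))))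

noncomputable def W42 : P :=
  (P.cons (P.cons (P.cons (P.lf 0 1695322 0) (P.cons (P.lf 7358894 0 0) (P.lf 0 15751969 0))) (P.cons (P.cons (P.lf 14233794 0 0) (P.lf 0 6482726 0)) (P.cons (P.lf 0 26472690 0) (P.lf 14601856 0 0)))) (P.cons (P.cons (P.cons (P.lf 8158525 0 0) (P.cons (P.lf 12808824 0 0) (P.lf 0 60054813 0))) (P.cons (P.cons (P.lf 0 9160346 0) (P.lf 13798993 0 0)) (P.lf 5875346 0 0))) (P.cons (P.cons (P.cons (P.lf 0 10492097 0) (P.lf 11357202 0 0)) (P.lf 0 2394928 0)) (P.lf 4442743 0 0))))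

noncomputable def W50 : P :=
  (P.cons (P.cons (P.cons (P.lf 0 3657288 0) (P.cons (P.lf 9922533 0 0) (P.lf 0 10209606 0))) (P.cons (P.cons (P.lf 0 13476427 0) (P.lf 0 10406901 0)) (P.cons (P.lf 37402538 0 0) (P.lf 0 18579160 0)))) (P.cons (P.cons (P.cons (P.lf 3431371 0 0) (P.cons (P.lf 26266788 0 0) (P.lf 0 116008790 0))) (P.cons (P.cons (P.lf 75369972 0 0) (P.lf 26321631 0 0)) (P.cons (P.lf 0 129397630 0) (P.lf 51020273 0 0)))) (P.cons (P.cons (P.cons (P.lf 18937551 0 0) (P.cons (P.lf 0 2158701 0) (P.lf 217966181 0 0))) (P.cons (P.cons (P.lf 0 112123872 0) (P.lf 0 46514426 0)) (P.cons (P.lf 130369381 0 0) (P.lf 0 45752378 0)))) (P.cons (P.cons (P.cons (P.lf 37002728 0 0) (P.cons (P.lf 0 222950232 0) (P.lf 0 51666874 0))) (P.cons (P.cons (P.lf 0 5045921 0) (P.lf 60258335 0 0)) (P.lf 0 2781210 0))) (P.cons (P.cons (P.cons (P.lf 0 54784386 0) (P.lf 158912804 0 0)) (P.lf 31752742 0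 0)) P.nil)))))

noncomputable def W51 : P :=
  (P.cons (P.cons (P.cons (P.lf 0 66045 0) (P.cons (P.lf 8696389 0 0) (P.lf 0 19121438 0))) (P.cons (P.cons (P.lf 0 8878852 0) (P.lf 0 420017 0)) (P.cons (P.lf 27613782 0 0) (P.lf 0 19736246 0)))) (P.cons (P.cons (P.cons (P.lf 0 11153536 0) (P.cons (P.lf 0 14714410 0) (P.lf 54057883 0 0))) (P.cons (P.cons (P.lf 38058650 0 0) (P.lf 0 10456738 0)) (P.cons (P.lf 0 84785599 0) (P.lf 51509492 0 0)))) (P.cons (P.cons (P.cons (P.lf 93353624 0 0) (P.cons (P.lf 0 37458097 0) (P.lf 0 56928160 0))) (P.cons (P.cons (P.lf 0 89146470 0) (P.lf 49108468 0 0)) (P.lf 27491780 0 0))) (P.cons (P.cons (P.cons (P.lf 0 104726090 0) (P.lf 27844163 0 0)) (P.lf 47099232 0 0)) (P.lf 29102800 0 0)))))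

noncomputable def W52 : P :=
  (P.cons (P.cons (P.cons (P.lf 652116 0 0) (P.cons (P.lf 0 7123352 0) (P.lf 16186800 0 0))) (P.cons (P.cons (P.lf 13011287 0 0) (P.lf 0 1000601 0)) (P.cons (P.lf 0 27482449 0) (P.lf 13716928 0 0)))) (P.cons (P.cons (P.cons (P.lf 17381965 0 0) (P.cons (P.lf 0 10545569 0) (P.lf 0 52724164 0))) (P.cons (P.cons (P.lf 0 30864937 0) (P.lf 20086923 0 0)) (P.lf 23817510 0 0))) (P.cons (P.cons (P.cons (P.lf 0 7746967 0) (P.lf 26138120 0 0)) (P.lf 0 6668843 0)) (P.lf 0 1607955 0))))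

noncomputable def W60 : P :=
  (P.cons (P.cons (P.cons (P.lf 4490059 0 0) (P.cons (P.lf 0 7632085 0) (P.lf 9943946 0 0))) (P.cons (P.cons (P.lf 13797514 0 0) (P.lf 4633681 0 0)) (P.cons (P.lf 0 35623042 0) (P.lf 21545202 0 0)))) (P.cons (P.cons (P.cons (P.lf 3884211 0 0) (P.cons (P.lf 24907629 0 0) (P.lf 47503169 0 0))) (P.cons (P.cons (P.lf 0 188040969 0) (P.lf 0 2547930 0)) (P.cons (P.lf 271413631 0 0) (P.lf 0 88885986 0)))) (P.cons (P.cons (P.cons (P.lf 0 36278117 0) (P.cons (P.lf 23089545 0 0) (P.lf 0 173574425 0))) (P.cons (P.cons (P.lf 532544048 0 0) (P.lf 24657392 0 0)) (P.cons (P.lf 0 546861436 0) (P.lf 78924860 0 0)))) (P.cons (P.cons (P.cons (P.lf 55157877 0 0) (P.cons (P.lf 0 93400691 0) (P.lf 167089030 0 0))) (P.cons (P.cons (P.lf 0 418721950 0) (P.lf 0 47203106 0)) (P.lf 337978872 0 0))) (P.cons (P.cons (P.cons (P.lf 0 19221388 0) (P.lf 61479063 0 0)) (P.lf 31667889 0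 0)) P.nil)))))

noncomputable def W61 : P :=
  (P.cons (P.cons (P.cons (P.lf 1830353 0 0) (P.cons (P.lf 0 5005713 0) (P.lf 9026013 0 0))) (P.cons (P.cons (P.lf 0 10270036 0) (P.lf 13981052 0 0)) (P.cons (P.lf 14025121 0 0) (P.lf 0 11050090 0)))) (P.cons (P.cons (P.cons (P.lf 0 8775453 0) (P.cons (P.lf 37082264 0 0) (P.lf 0 10496545 0))) (P.cons (P.cons (P.lf 0 15538696 0) (P.lf 0 12967589 0)) (P.cons (P.lf 41314641 0 0) (P.lf 0 10859031 0)))) (P.cons (P.cons (P.cons (P.lf 0 29294306 0) (P.cons (P.lf 0 57843361 0) (P.lf 37004053 0 0))) (P.cons (P.cons (P.lf 75675465 0 0) (P.lf 0 17382588 0)) (P.lf 0 48241331 0))) (P.cons (P.cons (P.cons (P.lf 79127014 0 0) (P.lf 23844977 0 0)) (P.lf 0 31353051 0)) (P.lf 0 50991128 0)))))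

noncomputable def W62 : P :=
  (P.cons (P.cons (P.cons (P.lf 0 46450 0) (P.cons (P.lf 0 4813783 0) (P.lf 23435266 0 0))) (P.cons (P.cons (P.lf 0 14374087 0) (P.lf 0 4455757 0)) (P.cons (P.lf 8233782 0 0) (P.lf 5672919 0 0)))) (P.cons (P.cons (P.cons (P.lf 0 1943163 0) (P.cons (P.lf 0 4251064 0) (P.lf 0 7184521 0))) (P.cons (P.cons (P.lf 49064368 0 0) (P.lf 0 10442214 0)) (P.lf 0 31290540 0))) (P.cons (P.cons (P.cons (P.lf 0 13594367 0) (P.lf 10345316 0 0)) (P.lf 0 14344009 0)) (P.lf 11204043 0 0))))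

noncomputable def W70 : P :=
  (P.cons (P.cons (P.cons (P.lf 3268885 0 0) (P.cons (P.lf 0 2593784 0) (P.lf 13788301 0 0))) (P.cons (P.cons (P.lf 2536855 0 0) (P.lf 0 16183745 0)) (P.cons (P.lf 0 4846310 0) (P.lf 2922143 0 0)))) (P.cons (P.cons (P.cons (P.lf 9494262 0 0) (P.cons (P.lf 0 31243659 0) (P.lf 3727445 0 0))) (P.cons (P.cons (P.lf 34695244 0 0) (P.lf 47901368 0 0)) (P.cons (P.lf 0 93624862 0) (P.lf 42907094 0 0)))) (P.cons (P.cons (P.cons (P.lf 0 57489210 0) (P.cons (P.lf 185502382 0 0) (P.lf 0 29983605 0))) (P.cons (P.cons (P.lf 0 124963775 0) (P.lf 0 44449511 0)) (P.cons (P.lf 199534688 0 0) (P.lf 0 86088184 0)))) (P.cons (P.cons (P.cons (P.lf 112887682 0 0) (P.cons (P.lf 0 329676948 0) (P.lf 32431613 0 0))) (P.cons (P.cons (P.lf 100260122 0 0) (P.lf 14682933 0 0)) (P.lf 0 39806832 0))) (P.cons (P.cons (P.cons (P.lf 0 70476257 0) (P.lf 188142785 0 0)) (P.lf 0 43334410 0))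 P.nil)))))

noncomputable def W71 : P :=
  (P.cons (P.cons (P.cons (P.lf 0 5322295 0) (P.cons (P.lf 18402426 0 0) (P.lf 0 9525467 0))) (P.cons (P.cons (P.lf 14475507 0 0) (P.lf 0 9393097 0)) (P.cons (P.lf 0 19206674 0) (P.lf 6681326 0 0)))) (P.cons (P.cons (P.cons (P.lf 0 8154770 0) (P.cons (P.lf 23720546 0 0) (P.lf 0 6485581 0))) (P.cons (P.cons (P.lf 10179776 0 0) (P.lf 0 39154268 0)) (P.cons (P.lf 27148388 0 0) (P.lf 0 13352462 0)))) (P.cons (P.cons (P.cons (P.lf 56080268 0 0) (P.cons (P.lf 0 42581927 0) (P.lf 6275720 0 0))) (P.cons (P.cons (P.lf 0 56063633 0) (P.lf 56272492 0 0)) (P.lf 11088333 0 0))) (P.cons (P.cons (P.cons (P.lf 0 64903642 0) (P.lf 2176359 0 0)) (P.lf 11946068 0 0)) (P.lf 34597791 0 0)))))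

noncomputable def W72 : P :=
  (P.cons (P.cons (P.cons (P.lf 0 4974753 0) (P.cons (P.lf 38247608 0 0) (P.lf 0 53559154 0))) (P.cons (P.cons (P.lf 0 344818 0) (P.lf 0 7726829 0)) (P.cons (P.lf 0 446153 0) (P.lf 5076127 0 0)))) (P.cons (P.cons (P.cons (P.lf 0 4600634 0) (P.cons (P.lf 0 7828485 0) (P.lf 11482048 0 0))) (P.cons (P.cons (P.lf 6013475 0 0) (P.lf 4954184 0 0)) (P.lf 1190909 0 0))) (P.cons (P.cons (P.cons (P.lf 26182833 0 0) (P.lf 0 13771249 0)) (P.lf 0 21680744 0)) (P.lf 0 8714330 0))))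

noncomputable def sel3 (a b c : P) (d : Nat) : P :=
  Nat.rec (motive := fun _ => P) a (fun d' _ => Nat.rec (motive := fun _ => P) b (fun _ _ => c) d') d

noncomputable def Wt (f d : Nat) : P :=
  Nat.rec (motive := fun _ => P) (sel3 W00 W01 W02 d)
    (fun f0 _ => (Nat.rec (motive := fun _ => P) (sel3 W10 W11 W12 d)
    (fun f1 _ => (Nat.rec (motive := fun _ => P) (sel3 W20 W21 W22 d)
    (fun f2 _ => (Nat.rec (motive := fun _ => P) (sel3 W30 W31 W32 d)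
    (fun f3 _ => (Nat.rec (motive := fun _ => P) (sel3 W40 W41 W42 d)
    (fun f4 _ => (Nat.rec (motive := fun _ => P) (sel3 W50 W51 W52 d)
    (fun f5 _ => (Nat.rec (motive := fun _ => P) (sel3 W60 W61 W62 d)
    (fun _ _ => (sel3 W70 W71 W72 d)) f5)) f4)) f3)) f2)) f1)) f0)) f

theorem Gd_ok : band (dgl16 (gL Wt)) (peq (pack (gL Wt) 0) Gd) = true := by decide +kernel

theorem b1_ok : dgl16 (bL1 Wt) = true := by decide +kernel

theorem b2_ok : dgl16 (bL2 Wt) = true := by decide +kernel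

end Vale.Agent.P098.Ck
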