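import Vale.Agent.P098.CkSem

open Finset

noncomputable section
namespace Vale.Agent.P098.Ck

theorem kshp_Dn (H : S_tm) (D a b c d : ℕ) :
    TMr (sDn D a b c d) (fun e => rDn (kap a b e) (cap c d e)) :=
  (H.dv D 0 (H.add (H.con 4294967296) (H.mn 5 (H.mul D (H.ka a b) (H.ka a b)))))

theorem kshp_R (H : S_tm) (D a b c d : ℕ) :
    TMr (sR D a b c d) (fun e => rR (kap a b e) (cap c d e)) :=
  H.inv D (kshp_Dn H D a b c d) fun e => by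
    simp only [rDn]
    have := mul_self_nonneg (kap a b e)
    push_cast
    norm_num
    linarith

theorem kshp_X (H : S_tm) (D a b c d : ℕ) :
    TMr (sX D a b c d) (fun e => rX (kap a b e) (cap c d e)) :=
  (H.mn 4 (H.mul D (H.ka a b) (kshp_R H D a b c d)))

theorem kshp_B (H : S_tm) (D a b c d : ℕ) :
    TMr (sB D a b c d) (fun e => rB (kap a b e) (cap c d e)) :=
  (H.dv D 0 (H.add (kshp_R H D a b c d) (H.mm 1 (H.con 2147483648))))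

theorem kshp_C2 (H : S_tm) (D a b c d : ℕ) :
    TMr (sC2 D a b c d) (fun e => rC2 (kap a b e) (cap c d e)) :=
  (H.mul D (H.cc c d) (H.cc c d))

theorem kshp_Ga (H : S_tm) (D a b c d : ℕ) :
    TMr (sGa D a b c d) (fun e => rGa (kap a b e) (cap c d e)) :=
  (H.dv D 0 (H.add (H.mn 3 (H.mul D (kshp_C2 H D a b c d) (H.cc c d))) (H.mm 3 (H.cc c d))))

theorem kshp_E2 (H : S_tm) (D a b c d : ℕ) :
    TMr (sE2 D a b c d) (fun e => rE2 (kap a b e) (cap c d e)) :=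
  (H.mul D (H.dv D 0 (H.add (H.con 4294967296) (H.mm 3 (kshp_C2 H D a b c d)))) (H.dv D 0 (H.add (H.con 8589934592) (H.mm 1 (kshp_C2 H D a b c d)))))

theorem kshp_X2 (H : S_tm) (D a b c d : ℕ) :
    TMr (sX2 D a b c d) (fun e => rX2 (kap a b e) (cap c d e)) :=
  (H.mul D (kshp_X H D a b c d) (kshp_X H D a b c d))

theorem kshp_B2 (H : S_tm) (D a b c d : ℕ) :
    TMr (sB2 D a b c d) (fun e => rB2 (kap a b e) (cap c d e)) :=
  (H.mul D (kshp_B H D a b c d) (kshp_B H D a b c d))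

theorem kshp_XB (H : S_tm) (D a b c d : ℕ) :
    TMr (sXB D a b c d) (fun e => rXB (kap a b e) (cap c d e)) :=
  (H.mul D (kshp_X H D a b c d) (kshp_B H D a b c d))

theorem kshp_X3 (H : S_tm) (D a b c d : ℕ) :
    TMr (sX3 D a b c d) (fun e => rX3 (kap a b e) (cap c d e)) :=
  (H.mul D (kshp_X2 H D a b c d) (kshp_X H D a b c d))

theorem kshp_BG (H : S_tm) (D a b c d : ℕ) :
    TMr (sBG D a b c d) (fun e => rBG (kap a b e) (cap c d e)) :=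
  (H.mul D (kshp_B2 H D a b c d) (kshp_Ga H D a b c d))

theorem kshp_T1 (H : S_tm) (D a b c d : ℕ) :
    TMr (sT1 D a b c d) (fun e => rT1 (kap a b e) (cap c d e)) :=
  (H.dv D 4 (H.add (H.mn 15 (kshp_X3 H D a b c d)) (H.add (H.mm 48 (H.mul D (kshp_XB H D a b c d) (kshp_B H D a b c d))) (H.mn 64 (H.mul D (kshp_B H D a b c d) (kshp_BG H D a b c d))))))

theorem kshp_T2 (H : S_tm) (D a b c d : ℕ) :
    TMr (sT2 D a b c d) (fun e => rT2 (kap a b e) (cap c d e)) :=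
  (H.mul D (kshp_T1 H D a b c d) (kshp_T1 H D a b c d))

theorem kshp_T3 (H : S_tm) (D a b c d : ℕ) :
    TMr (sT3 D a b c d) (fun e => rT3 (kap a b e) (cap c d e)) :=
  (H.mul D (kshp_T2 H D a b c d) (kshp_T1 H D a b c d))

theorem kshp_XT11 (H : S_tm) (D a b c d : ℕ) :
    TMr (sXT11 D a b c d) (fun e => rXT11 (kap a b e) (cap c d e)) :=
  (H.mul D (kshp_X H D a b c d) (kshp_T1 H D a b c d))

theorem kshp_XT12 (H : S_tm) (D a b c d : ℕ) :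
    TMr (sXT12 D a b c d) (fun e => rXT12 (kap a b e) (cap c d e)) :=
  (H.mul D (kshp_X H D a b c d) (kshp_T2 H D a b c d))

theorem kshp_XT21 (H : S_tm) (D a b c d : ℕ) :
    TMr (sXT21 D a b c d) (fun e => rXT21 (kap a b e) (cap c d e)) :=
  (H.mul D (kshp_X2 H D a b c d) (kshp_T1 H D a b c d))

theorem kshp_XT22 (H : S_tm) (D a b c d : ℕ) :
    TMr (sXT22 D a b c d) (fun e => rXT22 (kap a b e) (cap c d e)) :=
  (H.mul D (kshp_X2 H D a b c d) (kshp_T2 H D a b c d))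

theorem kshp_XT31 (H : S_tm) (D a b c d : ℕ) :
    TMr (sXT31 D a b c d) (fun e => rXT31 (kap a b e) (cap c d e)) :=
  (H.mul D (kshp_X3 H D a b c d) (kshp_T1 H D a b c d))

theorem kshp_XT32 (H : S_tm) (D a b c d : ℕ) :
    TMr (sXT32 D a b c d) (fun e => rXT32 (kap a b e) (cap c d e)) :=
  (H.mul D (kshp_X3 H D a b c d) (kshp_T2 H D a b c d))

theorem kshp_BX01 (H : S_tm) (D a b c d : ℕ) :
    TMr (sBX01 D a b c d) (fun e => rBX01 (kap a b e) (cap c d e)) :=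
  (H.mul D (kshp_B H D a b c d) (kshp_T1 H D a b c d))

theorem kshp_BX02 (H : S_tm) (D a b c d : ℕ) :
    TMr (sBX02 D a b c d) (fun e => rBX02 (kap a b e) (cap c d e)) :=
  (H.mul D (kshp_B H D a b c d) (kshp_T2 H D a b c d))

theorem kshp_BX11 (H : S_tm) (D a b c d : ℕ) :
    TMr (sBX11 D a b c d) (fun e => rBX11 (kap a b e) (cap c d e)) :=
  (H.mul D (kshp_B H D a b c d) (kshp_XT11 H D a b c d))

theorem kshp_BX12 (H : S_tm) (D a b c d : ℕ) :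
    TMr (sBX12 D a b c d) (fun e => rBX12 (kap a b e) (cap c d e)) :=
  (H.mul D (kshp_B H D a b c d) (kshp_XT12 H D a b c d))

theorem kshp_BX20 (H : S_tm) (D a b c d : ℕ) :
    TMr (sBX20 D a b c d) (fun e => rBX20 (kap a b e) (cap c d e)) :=
  (H.mul D (kshp_B H D a b c d) (kshp_X2 H D a b c d))

theorem kshp_BX21 (H : S_tm) (D a b c d : ℕ) :
    TMr (sBX21 D a b c d) (fun e => rBX21 (kap a b e) (cap c d e)) :=
  (H.mul D (kshp_B H D a b c d) (kshp_XT21 H D a b c d))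

theorem kshp_BX22 (H : S_tm) (D a b c d : ℕ) :
    TMr (sBX22 D a b c d) (fun e => rBX22 (kap a b e) (cap c d e)) :=
  (H.mul D (kshp_B H D a b c d) (kshp_XT22 H D a b c d))

theorem kshp_AX00 (H : S_tm) (D a b c d : ℕ) :
    TMr (sAX00 D a b c d) (fun e => rAX00 (kap a b e) (cap c d e)) :=
  (H.dv D 4 (H.mm 15 (kshp_X H D a b c d)))

theorem kshp_AX01 (H : S_tm) (D a b c d : ℕ) :
    TMr (sAX01 D a b c d) (fun e => rAX01 (kap a b e) (cap c d e)) :=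
  (H.dv D 4 (H.mm 15 (kshp_XT11 H D a b c d)))

theorem kshp_AX02 (H : S_tm) (D a b c d : ℕ) :
    TMr (sAX02 D a b c d) (fun e => rAX02 (kap a b e) (cap c d e)) :=
  (H.dv D 4 (H.mm 15 (kshp_XT12 H D a b c d)))

theorem kshp_AX10 (H : S_tm) (D a b c d : ℕ) :
    TMr (sAX10 D a b c d) (fun e => rAX10 (kap a b e) (cap c d e)) :=
  (H.dv D 4 (H.mm 15 (kshp_X2 H D a b c d)))

theorem kshp_AX11 (H : S_tm) (D a b c d : ℕ) :
    TMr (sAX11 D a b c d) (fun e => rAX11 (kap a b e) (cap c d e)) :=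
  (H.dv D 4 (H.mm 15 (kshp_XT21 H D a b c d)))

theorem kshp_AX12 (H : S_tm) (D a b c d : ℕ) :
    TMr (sAX12 D a b c d) (fun e => rAX12 (kap a b e) (cap c d e)) :=
  (H.dv D 4 (H.mm 15 (kshp_XT22 H D a b c d)))

theorem kshp_AX20 (H : S_tm) (D a b c d : ℕ) :
    TMr (sAX20 D a b c d) (fun e => rAX20 (kap a b e) (cap c d e)) :=
  (H.dv D 4 (H.mm 15 (kshp_X3 H D a b c d)))

theorem kshp_AX21 (H : S_tm) (D a b c d : ℕ) :
    TMr (sAX21 D a b c d) (fun e => rAX21 (kap a b e) (cap c d e)) :=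
  (H.dv D 4 (H.mm 15 (kshp_XT31 H D a b c d)))

theorem kshp_AX22 (H : S_tm) (D a b c d : ℕ) :
    TMr (sAX22 D a b c d) (fun e => rAX22 (kap a b e) (cap c d e)) :=
  (H.dv D 4 (H.mm 15 (kshp_XT32 H D a b c d)))

theorem kshp_CT000 (H : S_tm) (D a b c d : ℕ) :
    TMr (sCT000 D a b c d) (fun e => rCT000 (kap a b e) (cap c d e)) :=
  (H.dv D 6 (H.add (H.mn 48 (kshp_B2 H D a b c d)) (H.add (H.mm 45 (kshp_X2 H D a b c d)) (H.mn 60 (kshp_XT11 H D a b c d)))))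

theorem kshp_CT001 (H : S_tm) (D a b c d : ℕ) :
    TMr (sCT001 D a b c d) (fun e => rCT001 (kap a b e) (cap c d e)) :=
  (H.dv D 1 (H.add (H.mn 2 (kshp_BG H D a b c d)) (H.add (H.mm 1 (kshp_XB H D a b c d)) (H.mm 2 (kshp_BX01 H D a b c d)))))

theorem kshp_CT002 (H : S_tm) (D a b c d : ℕ) :
    TMr (sCT002 D a b c d) (fun e => rCT002 (kap a b e) (cap c d e)) :=
  (H.dv D 1 (H.mul D (kshp_B2 H D a b c d) (kshp_E2 H D a b c d)))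

theorem kshp_CT010 (H : S_tm) (D a b c d : ℕ) :
    TMr (sCT010 D a b c d) (fun e => rCT010 (kap a b e) (cap c d e)) :=
  (H.mul D (kshp_T1 H D a b c d) (kshp_CT000 H D a b c d))

theorem kshp_CT011 (H : S_tm) (D a b c d : ℕ) :
    TMr (sCT011 D a b c d) (fun e => rCT011 (kap a b e) (cap c d e)) :=
  (H.mul D (kshp_T1 H D a b c d) (kshp_CT001 H D a b c d))

theorem kshp_CT012 (H : S_tm) (D a b c d : ℕ) :
    TMr (sCT012 D a b c d) (fun e => rCT012 (kap a b e) (cap c d e)) :=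
  (H.mul D (kshp_T1 H D a b c d) (kshp_CT002 H D a b c d))

theorem kshp_CT100 (H : S_tm) (D a b c d : ℕ) :
    TMr (sCT100 D a b c d) (fun e => rCT100 (kap a b e) (cap c d e)) :=
  (H.mul D (kshp_X H D a b c d) (kshp_CT000 H D a b c d))

theorem kshp_CT101 (H : S_tm) (D a b c d : ℕ) :
    TMr (sCT101 D a b c d) (fun e => rCT101 (kap a b e) (cap c d e)) :=
  (H.mul D (kshp_X H D a b c d) (kshp_CT001 H D a b c d))

theorem kshp_CT102 (H : S_tm) (D a b c d : ℕ) :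
    TMr (sCT102 D a b c d) (fun e => rCT102 (kap a b e) (cap c d e)) :=
  (H.mul D (kshp_X H D a b c d) (kshp_CT002 H D a b c d))

theorem kshp_CT110 (H : S_tm) (D a b c d : ℕ) :
    TMr (sCT110 D a b c d) (fun e => rCT110 (kap a b e) (cap c d e)) :=
  (H.mul D (kshp_XT11 H D a b c d) (kshp_CT000 H D a b c d))

theorem kshp_CT111 (H : S_tm) (D a b c d : ℕ) :
    TMr (sCT111 D a b c d) (fun e => rCT111 (kap a b e) (cap c d e)) :=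
  (H.mul D (kshp_XT11 H D a b c d) (kshp_CT001 H D a b c d))

theorem kshp_CT112 (H : S_tm) (D a b c d : ℕ) :
    TMr (sCT112 D a b c d) (fun e => rCT112 (kap a b e) (cap c d e)) :=
  (H.mul D (kshp_XT11 H D a b c d) (kshp_CT002 H D a b c d))

theorem kshp_CT200 (H : S_tm) (D a b c d : ℕ) :
    TMr (sCT200 D a b c d) (fun e => rCT200 (kap a b e) (cap c d e)) :=
  (H.mul D (kshp_X2 H D a b c d) (kshp_CT000 H D a b c d))

theorem kshp_CT201 (H : S_tm) (D a b c d : ℕ) :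
    TMr (sCT201 D a b c d) (fun e => rCT201 (kap a b e) (cap c d e)) :=
  (H.mul D (kshp_X2 H D a b c d) (kshp_CT001 H D a b c d))

theorem kshp_CT202 (H : S_tm) (D a b c d : ℕ) :
    TMr (sCT202 D a b c d) (fun e => rCT202 (kap a b e) (cap c d e)) :=
  (H.mul D (kshp_X2 H D a b c d) (kshp_CT002 H D a b c d))

theorem kshp_CT210 (H : S_tm) (D a b c d : ℕ) :
    TMr (sCT210 D a b c d) (fun e => rCT210 (kap a b e) (cap c d e)) :=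
  (H.mul D (kshp_XT21 H D a b c d) (kshp_CT000 H D a b c d))

theorem kshp_CT211 (H : S_tm) (D a b c d : ℕ) :
    TMr (sCT211 D a b c d) (fun e => rCT211 (kap a b e) (cap c d e)) :=
  (H.mul D (kshp_XT21 H D a b c d) (kshp_CT001 H D a b c d))

theorem kshp_CT212 (H : S_tm) (D a b c d : ℕ) :
    TMr (sCT212 D a b c d) (fun e => rCT212 (kap a b e) (cap c d e)) :=
  (H.mul D (kshp_XT21 H D a b c d) (kshp_CT002 H D a b c d))

theorem kshp_BC00 (H : S_tm) (D a b c d : ℕ) :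
    TMr (sBC00 D a b c d) (fun e => rBC00 (kap a b e) (cap c d e)) :=
  (H.mul D (kshp_B H D a b c d) (kshp_CT000 H D a b c d))

theorem kshp_BC01 (H : S_tm) (D a b c d : ℕ) :
    TMr (sBC01 D a b c d) (fun e => rBC01 (kap a b e) (cap c d e)) :=
  (H.mul D (kshp_B H D a b c d) (kshp_CT001 H D a b c d))

theorem kshp_BC02 (H : S_tm) (D a b c d : ℕ) :
    TMr (sBC02 D a b c d) (fun e => rBC02 (kap a b e) (cap c d e)) :=
  (H.mul D (kshp_B H D a b c d) (kshp_CT002 H D a b c d))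

theorem kshp_BC10 (H : S_tm) (D a b c d : ℕ) :
    TMr (sBC10 D a b c d) (fun e => rBC10 (kap a b e) (cap c d e)) :=
  (H.mul D (kshp_B H D a b c d) (kshp_CT010 H D a b c d))

theorem kshp_BC11 (H : S_tm) (D a b c d : ℕ) :
    TMr (sBC11 D a b c d) (fun e => rBC11 (kap a b e) (cap c d e)) :=
  (H.mul D (kshp_B H D a b c d) (kshp_CT011 H D a b c d))

theorem kshp_BC12 (H : S_tm) (D a b c d : ℕ) :
    TMr (sBC12 D a b c d) (fun e => rBC12 (kap a b e) (cap c d e)) :=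
  (H.mul D (kshp_B H D a b c d) (kshp_CT012 H D a b c d))

theorem kshp_BB1 (H : S_tm) (D a b c d : ℕ) :
    TMr (sBB1 D a b c d) (fun e => rBB1 (kap a b e) (cap c d e)) :=
  (H.mul D (kshp_B H D a b c d) (kshp_BX01 H D a b c d))

theorem kshp_BB2 (H : S_tm) (D a b c d : ℕ) :
    TMr (sBB2 D a b c d) (fun e => rBB2 (kap a b e) (cap c d e)) :=
  (H.mul D (kshp_B H D a b c d) (kshp_BX02 H D a b c d))

theorem kshp_nil : RepE EL.nil (fun _ _ => 0) := fun _ _ => rfl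

theorem kshp_S1 (H : S_tm) (D a b c d : ℕ) :
    RepE (sS1 D a b c d) (fun e => rS1 (kap a b e) (cap c d e)) :=
  ⟨_, _, (H.dv D 7 (H.add (H.mn 252 (H.con 4294967296)) (H.mm 225 (kshp_X2 H D a b c d)))), ⟨_, _, (H.dv D 4 (H.mn 30 (kshp_XB H D a b c d))), ⟨_, _, (H.dv D 1 (H.add (H.mn 3 (H.con 4294967296)) (H.mm 4 (kshp_B2 H D a b c d)))), ⟨_, _, (H.dv D 1 (H.mn 3 (H.con 4294967296))), kshp_nil, fun _ _ => rfl⟩, fun _ _ => rfl⟩, fun _ _ => rfl⟩, fun _ _ => rfl⟩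

theorem kshp_S2 (H : S_tm) (D a b c d : ℕ) :
    RepE (sS2 D a b c d) (fun e => rS2 (kap a b e) (cap c d e)) :=
  ⟨_, _, (H.dv D 7 (H.add (H.mn 252 (kshp_T1 H D a b c d)) (H.add (H.mm 225 (kshp_XT21 H D a b c d)) (H.mm 720 (kshp_CT100 H D a b c d))))), ⟨_, _, (H.dv D 4 (H.add (H.mn 30 (kshp_BX11 H D a b c d)) (H.add (H.mm 45 (kshp_CT101 H D a b c d)) (H.mn 48 (kshp_BC00 H D a b c d))))), ⟨_, _, (H.dv D 1 (H.add (H.mn 3 (kshp_T1 H D a b c d)) (H.add (H.mm 4 (kshp_BB1 H D a b c d)) (H.mn 12 (kshp_BC01 H D a b c d))))), ⟨_, _, (H.dv D 1 (H.mn 3 (kshp_T1 H D a b c d))), ⟨_, _, (H.dv D 4 (H.mm 45 (kshp_CT102 H D a b c d))), ⟨_, _, (H.mn 3 (kshp_BC02 H D a b c d)), kshp_nil, fun _ _ => rfl⟩, fun _ _ => rfl⟩, fun _ _ => rfl⟩, fun _ _ => rfl⟩, fun _ _ => rfl⟩, fun _ _ => rfl⟩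

theorem kshp_S3 (H : S_tm) (D a b c d : ℕ) :
    RepE (sS3 D a b c d) (fun e => rS3 (kap a b e) (cap c d e)) :=
  ⟨_, _, (H.dv D 7 (H.add (H.mn 252 (kshp_T2 H D a b c d)) (H.add (H.mm 225 (kshp_XT22 H D a b c d)) (H.mm 1440 (kshp_CT110 H D a b c d))))), ⟨_, _, (H.dv D 4 (H.add (H.mn 30 (kshp_BX12 H D a b c d)) (H.add (H.mm 90 (kshp_CT111 H D a b c d)) (H.mn 96 (kshp_BC10 H D a b c d))))), ⟨_, _, (H.dv D 1 (H.add (H.mn 3 (kshp_T2 H D a b c d)) (H.add (H.mm 4 (kshp_BB2 H D a b c d)) (H.mn 24 (kshp_BC11 H D a b c d))))), ⟨_, _, (H.dv D 1 (H.mn 3 (kshp_T2 H D a b c d))), ⟨_, _, (H.dv D 4 (H.mm 90 (kshp_CT112 H D a b c d))), ⟨_, _, (H.mn 6 (kshp_BC12 H D a b c d)), kshp_nil, fun _ _ => rfl⟩, fun _ _ => rfl⟩, fun _ _ => rfl⟩, fun _ _ => rfl⟩, fun _ _ => rfl⟩, fun _ _ => rfl⟩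

theorem kshp_S4 (H : S_tm) (D a b c d : ℕ) :
    RepE (sS4 D a b c d) (fun e => rS4 (kap a b e) (cap c d e)) :=
  ⟨_, _, (H.dv D 7 (H.mn 225 (kshp_X2 H D a b c d))), ⟨_, _, (H.dv D 3 (H.mm 15 (kshp_XB H D a b c d))), ⟨_, _, (H.mn 2 (kshp_B2 H D a b c d)), kshp_nil, fun _ _ => rfl⟩, fun _ _ => rfl⟩, fun _ _ => rfl⟩

theorem kshp_S5 (H : S_tm) (D a b c d : ℕ) :
    RepE (sS5 D a b c d) (fun e => rS5 (kap a b e) (cap c d e)) :=
  ⟨_, _, (H.dv D 7 (H.mn 225 (kshp_XT21 H D a b c d))), ⟨_, _, (H.dv D 3 (H.mm 15 (kshp_BX11 H D a b c d))), ⟨_, _, (H.mn 2 (kshp_BB1 H D a b c d)), kshp_nil, fun _ _ => rfl⟩, fun _ _ => rfl⟩, fun _ _ => rfl⟩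

theorem kshp_S6 (H : S_tm) (D a b c d : ℕ) :
    RepE (sS6 D a b c d) (fun e => rS6 (kap a b e) (cap c d e)) :=
  ⟨_, _, (H.dv D 7 (H.mn 225 (kshp_XT22 H D a b c d))), ⟨_, _, (H.dv D 3 (H.mm 15 (kshp_BX12 H D a b c d))), ⟨_, _, (H.mn 2 (kshp_BB2 H D a b c d)), kshp_nil, fun _ _ => rfl⟩, fun _ _ => rfl⟩, fun _ _ => rfl⟩

theorem kshp_S7 (H : S_tm) (D a b c d : ℕ) :
    RepE (sS7 D a b c d) (fun e => rS7 (kap a b e) (cap c d e)) :=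
  ⟨_, _, (H.mn 2 (H.con 4294967296)), ⟨_, _, (H.mm 1 (kshp_AX00 H D a b c d)), ⟨_, _, (H.mm 1 (kshp_B H D a b c d)), kshp_nil, fun _ _ => rfl⟩, fun _ _ => rfl⟩, fun _ _ => rfl⟩

theorem kshp_S8 (H : S_tm) (D a b c d : ℕ) :
    RepE (sS8 D a b c d) (fun e => rS8 (kap a b e) (cap c d e)) :=
  ⟨_, _, (H.mn 2 (kshp_T1 H D a b c d)), ⟨_, _, (H.dv D 0 (H.add (H.mm 1 (kshp_AX01 H D a b c d)) (H.mm 3 (kshp_CT000 H D a b c d)))), ⟨_, _, (H.dv D 0 (H.add (H.mm 1 (kshp_BX01 H D a b c d)) (H.mm 3 (kshp_CT001 H D a b c d)))), ⟨_, _, (H.mm 3 (kshp_CT002 H D a b c d)), kshp_nil, fun _ _ => rfl⟩, fun _ _ => rfl⟩, fun _ _ => rfl⟩, fun _ _ => rfl⟩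

theorem kshp_S9 (H : S_tm) (D a b c d : ℕ) :
    RepE (sS9 D a b c d) (fun e => rS9 (kap a b e) (cap c d e)) :=
  ⟨_, _, (H.mn 2 (kshp_T2 H D a b c d)), ⟨_, _, (H.dv D 0 (H.add (H.mm 1 (kshp_AX02 H D a b c d)) (H.mm 6 (kshp_CT010 H D a b c d)))), ⟨_, _, (H.dv D 0 (H.add (H.mm 1 (kshp_BX02 H D a b c d)) (H.mm 6 (kshp_CT011 H D a b c d)))), ⟨_, _, (H.mm 6 (kshp_CT012 H D a b c d)), kshp_nil, fun _ _ => rfl⟩, fun _ _ => rfl⟩, fun _ _ => rfl⟩, fun _ _ => rfl⟩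

theorem kshp_S10 (H : S_tm) (D a b c d : ℕ) :
    RepE (sS10 D a b c d) (fun e => rS10 (kap a b e) (cap c d e)) :=
  ⟨_, _, (H.mm 1 (kshp_AX00 H D a b c d)), ⟨_, _, (H.mm 1 (kshp_B H D a b c d)), kshp_nil, fun _ _ => rfl⟩, fun _ _ => rfl⟩

theorem kshp_S11 (H : S_tm) (D a b c d : ℕ) :
    RepE (sS11 D a b c d) (fun e => rS11 (kap a b e) (cap c d e)) :=
  ⟨_, _, (H.mm 1 (kshp_AX01 H D a b c d)), ⟨_, _, (H.mm 1 (kshp_BX01 H D a b c d)), kshp_nil, fun _ _ => rfl⟩, fun _ _ => rfl⟩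

theorem kshp_S12 (H : S_tm) (D a b c d : ℕ) :
    RepE (sS12 D a b c d) (fun e => rS12 (kap a b e) (cap c d e)) :=
  ⟨_, _, (H.mm 1 (kshp_AX02 H D a b c d)), ⟨_, _, (H.mm 1 (kshp_BX02 H D a b c d)), kshp_nil, fun _ _ => rfl⟩, fun _ _ => rfl⟩

theorem kshp_S13 (H : S_tm) (D a b c d : ℕ) :
    RepE (sS13 D a b c d) (fun e => rS13 (kap a b e) (cap c d e)) :=
  ⟨_, _, (kshp_AX00 H D a b c d), ⟨_, _, (kshp_B H D a b c d), kshp_nil, fun _ _ => rfl⟩, fun _ _ => rfl⟩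

theorem kshp_S14 (H : S_tm) (D a b c d : ℕ) :
    RepE (sS14 D a b c d) (fun e => rS14 (kap a b e) (cap c d e)) :=
  ⟨_, _, (kshp_AX01 H D a b c d), ⟨_, _, (kshp_BX01 H D a b c d), kshp_nil, fun _ _ => rfl⟩, fun _ _ => rfl⟩

theorem kshp_S15 (H : S_tm) (D a b c d : ℕ) :
    RepE (sS15 D a b c d) (fun e => rS15 (kap a b e) (cap c d e)) :=
  ⟨_, _, (kshp_AX02 H D a b c d), ⟨_, _, (kshp_BX02 H D a b c d), kshp_nil, fun _ _ => rfl⟩, fun _ _ => rfl⟩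

theorem kshp_S16 (H : S_tm) (D a b c d : ℕ) :
    RepE (sS16 D a b c d) (fun e => rS16 (kap a b e) (cap c d e)) :=
  ⟨_, _, (kshp_AX10 H D a b c d), ⟨_, _, (kshp_XB H D a b c d), kshp_nil, fun _ _ => rfl⟩, fun _ _ => rfl⟩

theorem kshp_S17 (H : S_tm) (D a b c d : ℕ) :
    RepE (sS17 D a b c d) (fun e => rS17 (kap a b e) (cap c d e)) :=
  ⟨_, _, (kshp_AX11 H D a b c d), ⟨_, _, (kshp_BX11 H D a b c d), kshp_nil, fun _ _ => rfl⟩, fun _ _ => rfl⟩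

theorem kshp_S18 (H : S_tm) (D a b c d : ℕ) :
    RepE (sS18 D a b c d) (fun e => rS18 (kap a b e) (cap c d e)) :=
  ⟨_, _, (kshp_AX12 H D a b c d), ⟨_, _, (kshp_BX12 H D a b c d), kshp_nil, fun _ _ => rfl⟩, fun _ _ => rfl⟩

theorem kshp_S19 (H : S_tm) (D a b c d : ℕ) :
    RepE (sS19 D a b c d) (fun e => rS19 (kap a b e) (cap c d e)) :=
  ⟨_, _, (kshp_AX20 H D a b c d), ⟨_, _, (kshp_BX20 H D a b c d), kshp_nil, fun _ _ => rfl⟩, fun _ _ => rfl⟩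

theorem kshp_S20 (H : S_tm) (D a b c d : ℕ) :
    RepE (sS20 D a b c d) (fun e => rS20 (kap a b e) (cap c d e)) :=
  ⟨_, _, (kshp_AX21 H D a b c d), ⟨_, _, (kshp_BX21 H D a b c d), kshp_nil, fun _ _ => rfl⟩, fun _ _ => rfl⟩

theorem kshp_S21 (H : S_tm) (D a b c d : ℕ) :
    RepE (sS21 D a b c d) (fun e => rS21 (kap a b e) (cap c d e)) :=
  ⟨_, _, (kshp_AX22 H D a b c d), ⟨_, _, (kshp_BX22 H D a b c d), kshp_nil, fun _ _ => rfl⟩, fun _ _ => rfl⟩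

theorem kshp_S22 (H : S_tm) (D a b c d : ℕ) :
    RepE (sS22 D a b c d) (fun e => rS22 (kap a b e) (cap c d e)) :=
  ⟨_, _, (H.mn 3 (kshp_CT000 H D a b c d)), ⟨_, _, (H.mn 3 (kshp_CT001 H D a b c d)), ⟨_, _, (H.mn 3 (kshp_CT002 H D a b c d)), kshp_nil, fun _ _ => rfl⟩, fun _ _ => rfl⟩, fun _ _ => rfl⟩

theorem kshp_S23 (H : S_tm) (D a b c d : ℕ) :
    RepE (sS23 D a b c d) (fun e => rS23 (kap a b e) (cap c d e)) :=
  ⟨_, _, (H.mn 3 (kshp_CT010 H D a b c d)), ⟨_, _, (H.mn 3 (kshp_CT011 H D a b c d)), ⟨_, _, (H.mn 3 (kshp_CT012 H D a b c d)), kshp_nil, fun _ _ => rfl⟩, fun _ _ => rfl⟩, fun _ _ => rfl⟩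

theorem kshp_S24 (H : S_tm) (D a b c d : ℕ) :
    RepE (sS24 D a b c d) (fun e => rS24 (kap a b e) (cap c d e)) :=
  ⟨_, _, (H.mn 3 (kshp_CT100 H D a b c d)), ⟨_, _, (H.mn 3 (kshp_CT101 H D a b c d)), ⟨_, _, (H.mn 3 (kshp_CT102 H D a b c d)), kshp_nil, fun _ _ => rfl⟩, fun _ _ => rfl⟩, fun _ _ => rfl⟩

theorem kshp_S25 (H : S_tm) (D a b c d : ℕ) :
    RepE (sS25 D a b c d) (fun e => rS25 (kap a b e) (cap c d e)) :=
  ⟨_, _, (H.mn 3 (kshp_CT110 H D a b c d)), ⟨_, _, (H.mn 3 (kshp_CT111 H D a b c d)), ⟨_, _, (H.mn 3 (kshp_CT112 H D a b c d)), kshp_nil, fun _ _ => rfl⟩, fun _ _ => rfl⟩, fun _ _ => rfl⟩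

theorem kshp_S26 (H : S_tm) (D a b c d : ℕ) :
    RepE (sS26 D a b c d) (fun e => rS26 (kap a b e) (cap c d e)) :=
  ⟨_, _, (H.mn 3 (kshp_CT200 H D a b c d)), ⟨_, _, (H.mn 3 (kshp_CT201 H D a b c d)), ⟨_, _, (H.mn 3 (kshp_CT202 H D a b c d)), kshp_nil, fun _ _ => rfl⟩, fun _ _ => rfl⟩, fun _ _ => rfl⟩

theorem kshp_S27 (H : S_tm) (D a b c d : ℕ) :
    RepE (sS27 D a b c d) (fun e => rS27 (kap a b e) (cap c d e)) :=
  ⟨_, _, (H.mn 3 (kshp_CT210 H D a b c d)), ⟨_, _, (H.mn 3 (kshp_CT211 H D a b c d)), ⟨_, _, (H.mn 3 (kshp_CT212 H D a b c d)), kshp_nil, fun _ _ => rfl⟩, fun _ _ => rfl⟩, fun _ _ => rfl⟩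

theorem kshp_S28 (H : S_tm) (D a b c d : ℕ) :
    RepE (sS28 D a b c d) (fun e => rS28 (kap a b e) (cap c d e)) :=
  ⟨_, _, (H.mm 1 (H.con 4294967296)), kshp_nil, fun _ _ => rfl⟩

theorem kshp_S29 (H : S_tm) (D a b c d : ℕ) :
    RepE (sS29 D a b c d) (fun e => rS29 (kap a b e) (cap c d e)) :=
  ⟨_, _, (H.mm 1 (kshp_T1 H D a b c d)), kshp_nil, fun _ _ => rfl⟩

theorem kshp_S30 (H : S_tm) (D a b c d : ℕ) :
    RepE (sS30 D a b c d) (fun e => rS30 (kap a b e) (cap c d e)) :=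
  ⟨_, _, (H.mm 1 (kshp_T2 H D a b c d)), kshp_nil, fun _ _ => rfl⟩

theorem kshp_S31 (H : S_tm) (D a b c d : ℕ) :
    RepE (sS31 D a b c d) (fun e => rS31 (kap a b e) (cap c d e)) :=
  ⟨_, _, (H.mm 1 (kshp_X H D a b c d)), kshp_nil, fun _ _ => rfl⟩

theorem kshp_S32 (H : S_tm) (D a b c d : ℕ) :
    RepE (sS32 D a b c d) (fun e => rS32 (kap a b e) (cap c d e)) :=
  ⟨_, _, (H.mm 1 (kshp_XT11 H D a b c d)), kshp_nil, fun _ _ => rfl⟩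

theorem kshp_S33 (H : S_tm) (D a b c d : ℕ) :
    RepE (sS33 D a b c d) (fun e => rS33 (kap a b e) (cap c d e)) :=
  ⟨_, _, (H.mm 1 (kshp_XT12 H D a b c d)), kshp_nil, fun _ _ => rfl⟩

theorem kshp_S34 (H : S_tm) (D a b c d : ℕ) :
    RepE (sS34 D a b c d) (fun e => rS34 (kap a b e) (cap c d e)) :=
  ⟨_, _, (H.mn 2 (H.con 4294967296)), kshp_nil, fun _ _ => rfl⟩

theorem kshp_S35 (H : S_tm) (D a b c d : ℕ) :
    RepE (sS35 D a b c d) (fun e => rS35 (kap a b e) (cap c d e)) :=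
  ⟨_, _, (H.mn 2 (kshp_T1 H D a b c d)), kshp_nil, fun _ _ => rfl⟩

theorem kshp_S36 (H : S_tm) (D a b c d : ℕ) :
    RepE (sS36 D a b c d) (fun e => rS36 (kap a b e) (cap c d e)) :=
  ⟨_, _, (H.mn 2 (kshp_T2 H D a b c d)), kshp_nil, fun _ _ => rfl⟩

theorem kshp_S37 (H : S_tm) (D a b c d : ℕ) :
    RepE (sS37 D a b c d) (fun e => rS37 (kap a b e) (cap c d e)) :=
  ⟨_, _, (H.mn 2 (kshp_X H D a b c d)), kshp_nil, fun _ _ => rfl⟩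

theorem kshp_S38 (H : S_tm) (D a b c d : ℕ) :
    RepE (sS38 D a b c d) (fun e => rS38 (kap a b e) (cap c d e)) :=
  ⟨_, _, (H.mn 2 (kshp_XT11 H D a b c d)), kshp_nil, fun _ _ => rfl⟩

theorem kshp_S39 (H : S_tm) (D a b c d : ℕ) :
    RepE (sS39 D a b c d) (fun e => rS39 (kap a b e) (cap c d e)) :=
  ⟨_, _, (H.mn 2 (kshp_XT12 H D a b c d)), kshp_nil, fun _ _ => rfl⟩

theorem kshp_S40 (H : S_tm) (D a b c d : ℕ) :
    RepE (sS40 D a b c d) (fun e => rS40 (kap a b e) (cap c d e)) :=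
  ⟨_, _, (H.mn 2 (kshp_X2 H D a b c d)), kshp_nil, fun _ _ => rfl⟩

theorem kshp_S41 (H : S_tm) (D a b c d : ℕ) :
    RepE (sS41 D a b c d) (fun e => rS41 (kap a b e) (cap c d e)) :=
  ⟨_, _, (H.mn 2 (kshp_XT21 H D a b c d)), kshp_nil, fun _ _ => rfl⟩

theorem kshp_S42 (H : S_tm) (D a b c d : ℕ) :
    RepE (sS42 D a b c d) (fun e => rS42 (kap a b e) (cap c d e)) :=
  ⟨_, _, (H.mn 2 (kshp_XT22 H D a b c d)), kshp_nil, fun _ _ => rfl⟩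

theorem kshp_S43 (H : S_tm) (D a b c d : ℕ) :
    RepE (sS43 D a b c d) (fun e => rS43 (kap a b e) (cap c d e)) :=
  ⟨_, _, (H.mn 2 (kshp_X3 H D a b c d)), kshp_nil, fun _ _ => rfl⟩

theorem kshp_S44 (H : S_tm) (D a b c d : ℕ) :
    RepE (sS44 D a b c d) (fun e => rS44 (kap a b e) (cap c d e)) :=
  ⟨_, _, (H.mn 2 (kshp_XT31 H D a b c d)), kshp_nil, fun _ _ => rfl⟩

theorem kshp_S45 (H : S_tm) (D a b c d : ℕ) :
    RepE (sS45 D a b c d) (fun e => rS45 (kap a b e) (cap c d e)) :=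
  ⟨_, _, (H.mn 2 (kshp_XT32 H D a b c d)), kshp_nil, fun _ _ => rfl⟩

theorem kshp_S46 (H : S_tm) (D a b c d : ℕ) :
    RepE (sS46 D a b c d) (fun e => rS46 (kap a b e) (cap c d e)) :=
  ⟨_, _, (H.mn 2 (kshp_T3 H D a b c d)), kshp_nil, fun _ _ => rfl⟩

theorem kshp_S47 (H : S_tm) (D a b c d : ℕ) :
    RepE (sS47 D a b c d) (fun e => rS47 (kap a b e) (cap c d e)) :=
  ⟨_, _, (H.con 4294967296), kshp_nil, fun _ _ => rfl⟩

theorem kshp_S48 (H : S_tm) (D a b c d : ℕ) :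
    RepE (sS48 D a b c d) (fun e => rS48 (kap a b e) (cap c d e)) :=
  ⟨_, _, (kshp_T1 H D a b c d), kshp_nil, fun _ _ => rfl⟩

theorem kshp_S49 (H : S_tm) (D a b c d : ℕ) :
    RepE (sS49 D a b c d) (fun e => rS49 (kap a b e) (cap c d e)) :=
  ⟨_, _, (kshp_T2 H D a b c d), kshp_nil, fun _ _ => rfl⟩

theorem shp_ok (H : S_tm) : S_shp := fun D a b c d =>
  ⟨48, rfl, kshp_S1 H D a b c d,
    ⟨47, rfl, kshp_S2 H D a b c d,
    ⟨46, rfl, kshp_S3 H D a b c d,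
    ⟨45, rfl, kshp_S4 H D a b c d,
    ⟨44, rfl, kshp_S5 H D a b c d,
    ⟨43, rfl, kshp_S6 H D a b c d,
    ⟨42, rfl, kshp_S7 H D a b c d,
    ⟨41, rfl, kshp_S8 H D a b c d,
    ⟨40, rfl, kshp_S9 H D a b c d,
    ⟨39, rfl, kshp_S10 H D a b c d,
    ⟨38, rfl, kshp_S11 H D a b c d,
    ⟨37, rfl, kshp_S12 H D a b c d,
    ⟨36, rfl, kshp_S13 H D a b c d,
    ⟨35, rfl, kshp_S14 H D a b c d,
    ⟨34, rfl, kshp_S15 H D a b c d,
    ⟨33, rfl, kshp_S16 H D a b c d,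
    ⟨32, rfl, kshp_S17 H D a b c d,
    ⟨31, rfl, kshp_S18 H D a b c d,
    ⟨30, rfl, kshp_S19 H D a b c d,
    ⟨29, rfl, kshp_S20 H D a b c d,
    ⟨28, rfl, kshp_S21 H D a b c d,
    ⟨27, rfl, kshp_S22 H D a b c d,
    ⟨26, rfl, kshp_S23 H D a b c d,
    ⟨25, rfl, kshp_S24 H D a b c d,
    ⟨24, rfl, kshp_S25 H D a b c d,
    ⟨23, rfl, kshp_S26 H D a b c d,
    ⟨22, rfl, kshp_S27 H D a b c d,
    ⟨21, rfl, kshp_S28 H D a b c d,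
    ⟨20, rfl, kshp_S29 H D a b c d,
    ⟨19, rfl, kshp_S30 H D a b c d,
    ⟨18, rfl, kshp_S31 H D a b c d,
    ⟨17, rfl, kshp_S32 H D a b c d,
    ⟨16, rfl, kshp_S33 H D a b c d,
    ⟨15, rfl, kshp_S34 H D a b c d,
    ⟨14, rfl, kshp_S35 H D a b c d,
    ⟨13, rfl, kshp_S36 H D a b c d,
    ⟨12, rfl, kshp_S37 H D a b c d,
    ⟨11, rfl, kshp_S38 H D a b c d,
    ⟨10, rfl, kshp_S39 H D a b c d,
    ⟨9, rfl, kshp_S40 H D a b c d,
    ⟨8, rfl, kshp_S41 H D a b c d,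
    ⟨7, rfl, kshp_S42 H D a b c d,
    ⟨6, rfl, kshp_S43 H D a b c d,
    ⟨5, rfl, kshp_S44 H D a b c d,
    ⟨4, rfl, kshp_S45 H D a b c d,
    ⟨3, rfl, kshp_S46 H D a b c d,
    ⟨2, rfl, kshp_S47 H D a b c d,
    ⟨1, rfl, kshp_S48 H D a b c d,
    ⟨0, rfl, kshp_S49 H D a b c d,
    rfl⟩⟩⟩⟩⟩⟩⟩⟩⟩⟩⟩⟩⟩⟩⟩⟩⟩⟩⟩⟩⟩⟩⟩⟩⟩⟩⟩⟩⟩⟩⟩⟩⟩⟩⟩⟩⟩⟩⟩⟩⟩⟩⟩⟩⟩⟩⟩⟩⟩

end Vale.Agent.P098.Ck
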